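import Crest.Statements.S0161
import Crest.Agent.HH.Transl
import Crest.Agent.HH.AppTr
import Crest.Agent.HH.Trace
import Crest.Agent.HH.Core
import Crest.Agent.HH.Expand
import Crest.Agent.HH.Fact
import Crest.Agent.HH.FixCB
import Crest.Agent.HH.FixFin
import Crest.Agent.HH.Model
import Crest.Agent.HH.Prism
import Crest.Agent.HH.Riesz
import Crest.Agent.HH.Step
import Crest.Agent.HH.VN1
import Crest.Agent.HH.VN3

set_option autoImplicit false
open Crest Crest.AnalysisR Crest.AnalysisR.OperatorAlgebra

namespace Crest.Agent.S0161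

/-- Let M be a von Neumann algebra on a complex Hilbert space and n ≥ 1. Every bounded complex-multilinear map f from (n+1)-tuples of elements of M to M whose Hochschild differential vanishes is the Hochschild differential of some bounded complex-multilinear map g on n-tuples: f = dg. Here (dg)(a₀,…,a_n) = a₀ g(a₁,…,a_n) + ∑_{j<n} (−1)^(j+1) g(…, a_j a_{j+1}, …) + (−1)^(n+1) g(a₀,…,a_{n−1}) a_n. -/
theorem result
    (H : Type*) [NormedAddCommGroup H] [InnerProductSpace ℂ H] [CompleteSpace H]
    (M : VonNeumannAlgebra H) (n : ℕ) (hn : 1 ≤ n)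
    (f : ContinuousMultilinearMap ℂ (fun _ : Fin (n + 1) => M.toStarSubalgebra) M.toStarSubalgebra)
    (hf : ∀ a : Fin (n + 2) → M.toStarSubalgebra, Crest.OpAlg.hochschildDiff f a = 0) :
    ∃ g : ContinuousMultilinearMap ℂ (fun _ : Fin n => M.toStarSubalgebra) M.toStarSubalgebra,
      ∀ a : Fin (n + 1) → M.toStarSubalgebra, Crest.OpAlg.hochschildDiff g a = f a := by
  have hc := HH.cover HH.cmp HH.sumPI
  exact HH.transl (HH.listThm HH.split HH.prism (HH.fixCB HH.fact HH.exMin HH.specP)
    (HH.fixFin HH.exMin HH.fixC (HH.core HH.exModel (HH.stepM HH.expand)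
      (HH.stepN HH.expand HH.nuAPI) HH.riesz HH.nuAPI HH.sig)
      (HH.dich hc HH.cSupp HH.maxPI HH.polar)
      (HH.traceThm (HH.appTr HH.maxPI HH.cmp HH.specP HH.polar hc))
      (HH.dixThmN HH.specP HH.cmp) HH.cSupp HH.nuAPI) H M n) f hf

end Crest.Agent.S0161
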