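import Crest.Statements.S0047
import Crest.Agent.H0047.All

set_option autoImplicit false
open Crest Crest.CombinatoricsR

namespace Crest.Agent.S0047

open Crest.CombinatoricsR.PolyominoGame Crest.Agent.H0047

lemma win_map (g : Cell → Cell) (hg : Function.Involutive g)
    (hc : ∀ X : Set Cell, ContainsCopy X → ContainsCopy (g '' X)) (k : ℕ) :
    ∀ M B : Finset Cell, Win k M B → Win k (M.image g) (B.image g) := by
  have hm : ∀ (M : Finset Cell) c, g c ∈ M.image g ↔ c ∈ M := fun M c =>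
    hg.injective.mem_finset_image
  induction k with
  | zero => intro M B h; simpa [Win] using hc _ h
  | succ k ih =>
    rintro M B ⟨m, h1, h2, h3⟩
    refine ⟨g m, by rwa [hm], by rwa [hm], fun b b1 b2 => ?_⟩
    obtain ⟨b, rfl⟩ := hg.surjective b
    rw [← Finset.image_insert] at b1 ⊢
    rw [← Finset.image_insert]
    exact ih _ _ (h3 b (by rwa [hm] at b1) (by rwa [hm] at b2))

def S (b : Cell) : Prop := Win 20 {(7, 8)} {b}

lemma S_fx {x y : ℤ} (h : S (x, y)) : S (14 - x, y) := by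
  have := win_map (fun c => (14 - c.1, c.2)) (fun c => by simp) ?_ 20 _ _ h
  · simpa [S] using this
  · rintro X ⟨t, a, b, ha, hb, h⟩
    refine ⟨(14 - t.1, t.2), -a, b, by omega, hb, h.imp (fun h p hp => ⟨_, h p hp, ?_⟩)
      fun h p hp => ⟨_, h p hp, ?_⟩⟩ <;> ext <;> simp only <;> ring

lemma S_fy {x y : ℤ} (h : S (x, y)) : S (x, 16 - y) := by
  have := win_map (fun c => (c.1, 16 - c.2)) (fun c => by simp) ?_ 20 _ _ h
  · simpa [S] using this
  · rintro X ⟨t, a, b, ha, hb, h⟩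
    refine ⟨(t.1, 16 - t.2), a, -b, ha, by omega, h.imp (fun h p hp => ⟨_, h p hp, ?_⟩)
      fun h p hp => ⟨_, h p hp, ?_⟩⟩ <;> ext <;> simp only <;> ring

lemma S_sw {x y : ℤ} (h : S (x, y)) : S (y - 1, x + 1) := by
  have := win_map (fun c => (c.2 - 1, c.1 + 1)) (fun c => by simp) ?_ 20 _ _ h
  · simpa [S] using this
  · rintro X ⟨t, a, b, ha, hb, h⟩
    refine ⟨(t.2 - 1, t.1 + 1), b, a, hb, ha, h.symm.imp (fun h p hp => ⟨_, h p hp, ?_⟩)
      fun h p hp => ⟨_, h p hp, ?_⟩⟩ <;> ext <;> simp only <;> ring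

lemma S_oct {x y : ℤ} (h1 : 8 ≤ y) (h2 : y - 8 ≤ x - 7) (h3 : (x, y) ≠ (7, 8)) : S (x, y) := by
  rcases root_acc with h | h
  · rw [rootN_eq] at h
    exact absurd h (by decide +kernel)
  · have a1 : ∀ i < 256, rootA.testBit i → i = 135 := by rw [rootA_eq]; decide +kernel
    have a2 : ∀ j, rootA.testBit (512 + j) → j < 20 := by
      intro j t
      by_contra hj
      have : rootA < 2 ^ (512 + j) :=
        lt_of_lt_of_le (b := 2 ^ 532) (by rw [rootA_eq]; decide +kernel)
          (Nat.pow_le_pow_right (by norm_num) (by omega))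
      rw [Nat.testBit_lt_two_pow this] at t
      exact absurd t (by simp)
    have a3 : ∀ i < 256, rootN.testBit (256 + i) → i = 135 ∨ i / 16 < 8 ∨ i % 16 + 1 < i / 16 := by
      rw [rootN_eq]; decide +kernel
    refine h {(7, 8)} ∅ (x, y) ⟨fun i hi t => ?_, by simp, a2⟩ fun i hi t e => ?_
    · rw [a1 i hi t]; decide
    · simp only [cell, Prod.mk.injEq, ne_eq] at e h3
      have := a3 i hi t
      omega

lemma S_all (b : Cell) (hb : b ≠ (7, 8)) : S b := by
  have h1 : ∀ x y : ℤ, 7 ≤ x → 8 ≤ y → (x, y) ≠ (7, 8) → S (x, y) := by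
    intro x y hx hy h
    by_cases h' : y - 8 ≤ x - 7
    · exact S_oct hy h' h
    · have := S_sw (S_oct (x := y - 1) (y := x + 1) (by omega) (by omega)
        (by simp only [ne_eq, Prod.mk.injEq]; omega))
      simpa using this
  have h2 : ∀ x y : ℤ, 7 ≤ x → (x, y) ≠ (7, 8) → S (x, y) := by
    intro x y hx h
    by_cases h' : 8 ≤ y
    · exact h1 x y hx h' h
    · simpa using S_fy (h1 x (16 - y) hx (by omega) (by simp only [ne_eq, Prod.mk.injEq]; omega))
  obtain ⟨x, y⟩ := b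
  by_cases h' : 7 ≤ x
  · exact h2 x y h' hb
  · simpa using S_fx (h2 (14 - x) y (by omega) (by simp only [ne_eq, Prod.mk.injEq]; omega))

lemma win21 : Win 21 ∅ ∅ := ⟨(7, 8), by simp, by simp, fun b hb _ => S_all b (by simpa using hb)⟩

noncomputable def mv (s : ℕ × Finset Cell × Finset Cell) : Cell :=
  Classical.epsilon fun m => m ∉ s.2.1 ∧ m ∉ s.2.2 ∧
    ∀ b, b ∉ insert m s.2.1 → b ∉ s.2.2 → Win (s.1 - 1) (insert m s.2.1) (insert b s.2.2)

noncomputable def st (l : List Cell) : ℕ × Finset Cell × Finset Cell :=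
  l.foldl (fun s b => (s.1 - 1, insert (mv s) s.2.1, insert b s.2.2)) (21, ∅, ∅)

lemma mv_spec {k : ℕ} {s : ℕ × Finset Cell × Finset Cell} (hk : s.1 = k + 1)
    (h : Win s.1 s.2.1 s.2.2) : mv s ∉ s.2.1 ∧ mv s ∉ s.2.2 ∧
      ∀ b, b ∉ insert (mv s) s.2.1 → b ∉ s.2.2 →
        Win (s.1 - 1) (insert (mv s) s.2.1) (insert b s.2.2) := by
  refine Classical.epsilon_spec (p := fun m => m ∉ s.2.1 ∧ m ∉ s.2.2 ∧
    ∀ b, b ∉ insert m s.2.1 → b ∉ s.2.2 → Win (s.1 - 1) (insert m s.2.1) (insert b s.2.2)) ?_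
  rw [hk] at h ⊢
  exact h

/-- In the Maker–Breaker game on the board ℤ × ℤ (Maker first; the players alternately claim one unclaimed cell), Maker has a policy — a rule giving its next cell from Breaker's replies so far — such that against every sequence of Breaker replies whose first 20 are legal (each a cell not claimed before), Maker's first 21 claims are legal and contain a copy of the six-cell polyomino Snaky {(0,0),(1,0),(2,0),(3,0),(3,1),(4,1)} under a translation composed with a signed coordinate permutation. -/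
theorem result :
    ∃ σ : List (ℤ × ℤ) → ℤ × ℤ, ∀ b : ℕ → ℤ × ℤ,
      (∀ k : ℕ, k < 20 →
        (∀ j : ℕ, j ≤ k → b k ≠ Crest.CombinatoricsR.PolyominoGame.makerClaim σ b j) ∧
        (∀ j : ℕ, j < k → b k ≠ b j)) →
      (∀ k : ℕ, k ≤ 20 →
        (∀ j : ℕ, j < k → Crest.CombinatoricsR.PolyominoGame.makerClaim σ b k ≠
          Crest.CombinatoricsR.PolyominoGame.makerClaim σ b j) ∧
        (∀ j : ℕ, j < k → Crest.CombinatoricsR.PolyominoGame.makerClaim σ b k ≠ b j)) ∧
      Crest.CombinatoricsR.PolyominoGame.ContainsCopy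
        {c | ∃ j : ℕ, j ≤ 20 ∧ c = Crest.CombinatoricsR.PolyominoGame.makerClaim σ b j} := by
  refine ⟨fun l => mv (st l), fun b hb => ?_⟩
  set s : ℕ → ℕ × Finset Cell × Finset Cell := fun k => st ((List.range k).map b) with hs
  have e0 : ∀ k, makerClaim (fun l => mv (st l)) b k = mv (s k) := fun k => rfl
  have e1 : ∀ k, s (k + 1) = ((s k).1 - 1, insert (mv (s k)) (s k).2.1, insert (b k) (s k).2.2) := by
    intro k
    simp only [hs, st, List.range_succ, List.map_append, List.foldl_append, List.map_cons,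
      List.map_nil, List.foldl_cons, List.foldl_nil]
  simp only [e0] at hb ⊢
  have inv : ∀ k ≤ 20, (s k).1 = 21 - k ∧ (∀ c, c ∈ (s k).2.1 ↔ ∃ j < k, c = mv (s j)) ∧
      (∀ c, c ∈ (s k).2.2 ↔ ∃ j < k, c = b j) ∧ Win (s k).1 (s k).2.1 (s k).2.2 := by
    intro k
    induction k with
    | zero => exact fun _ => ⟨rfl, by simp [hs, st], by simp [hs, st], win21⟩
    | succ k ih =>
      intro hk
      obtain ⟨h1, h2, h3, h4⟩ := ih (by omega)
      have h5 : ∀ c, c ∈ insert (mv (s k)) (s k).2.1 ↔ ∃ j < k + 1, c = mv (s j) := by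
        intro c; rw [Finset.mem_insert, h2, Nat.exists_lt_succ_right, or_comm]
      rw [e1]
      refine ⟨by simp only; omega, h5, fun c => ?_, (mv_spec (k := 20 - k) (by omega) h4).2.2 _ ?_ ?_⟩
      · rw [Finset.mem_insert, h3, Nat.exists_lt_succ_right, or_comm]
      · rw [h5]
        rintro ⟨j, hj, e⟩
        exact (hb k (by omega)).1 j (by omega) e
      · rw [h3]
        rintro ⟨j, hj, e⟩
        exact (hb k (by omega)).2 j hj e
  refine ⟨fun k hk => ?_, ?_⟩
  · obtain ⟨h1, h2, h3, h4⟩ := inv k hk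
    have := mv_spec (k := 20 - k) (by omega) h4
    exact ⟨fun j hj e => this.1 ((h2 _).2 ⟨j, hj, e⟩), fun j hj e => this.2.1 ((h3 _).2 ⟨j, hj, e⟩)⟩
  · obtain ⟨h1, h2, h3, h4⟩ := inv 20 le_rfl
    obtain ⟨c, c1, c2⟩ := exists_fresh (insert (mv (s 20)) (s 20).2.1) (s 20).2.2
    have := (mv_spec (k := 0) h1 h4).2.2 c c1 c2
    rw [h1] at this
    refine copy_mono (fun c hc => ?_) this
    rcases Finset.mem_insert.1 (Finset.mem_coe.1 hc) with e | e
    · exact ⟨20, le_rfl, e⟩
    · obtain ⟨j, hj, e⟩ := (h2 c).1 e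
      exact ⟨j, hj.le, e⟩

end Crest.Agent.S0047
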