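import Crest.Statements.S0066
import Crest.Agent.H0066.Final

set_option autoImplicit false
open Crest Crest.CombinatoricsR

namespace Crest.Agent.S0066

/-- There is a fixed 66 × 66 binary pattern H such that for every h ≥ 1, with n = (386h + 2) · 2^h and ε = (386h + 2)⁻², some n × n binary matrix A is ε-far from free of ordered copies of H (every n × n binary matrix without an ordered copy of H differs from A in at least ε · n² cells) while the number of ordered copies of H in A is at most ε · 2^(-h) · n^132. An ordered copy picks 66 rows and 66 columns in increasing order on which A coincides with H, zeros included. -/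
theorem result :
    ∃ H : Fin 66 → Fin 66 → Bool, ∀ h : ℕ, 1 ≤ h →
      ∃ A : Fin ((386 * h + 2) * 2 ^ h) → Fin ((386 * h + 2) * 2 ^ h) → Bool,
        (∀ B : Fin ((386 * h + 2) * 2 ^ h) → Fin ((386 * h + 2) * 2 ^ h) → Bool,
          Crest.CombinatoricsR.OrderedMatrix.orderedCopyCount H B = 0 →
            ((386 * (h : ℝ) + 2) ^ 2)⁻¹ * (((386 * h + 2) * 2 ^ h : ℕ) : ℝ) ^ 2 ≤
              ((Finset.univ.filter (fun rc : Fin ((386 * h + 2) * 2 ^ h) × Fin ((386 * h + 2) * 2 ^ h) =>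
                A rc.1 rc.2 ≠ B rc.1 rc.2)).card : ℝ)) ∧
        (Crest.CombinatoricsR.OrderedMatrix.orderedCopyCount H A : ℝ) /
            (((386 * h + 2) * 2 ^ h : ℕ) : ℝ) ^ 132 ≤
          ((386 * (h : ℝ) + 2) ^ 2)⁻¹ * (2 : ℝ)⁻¹ ^ h := by
  refine ⟨H0066.H, fun h hh => ?_⟩
  have hn := H0066.par_n h hh
  have hN : 0 < (H0066.par h).N := by simp [H0066.par]
  refine ⟨H0066.A (H0066.par h) _, fun B hB => ?_, ?_⟩
  · have h1 := H0066.far (H0066.par h) _ hn hN (H0066.par_P h hh) (H0066.par_m h) B hB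
    have h2 : (H0066.par h).N = 2 ^ h := rfl
    rw [h2] at h1
    have h3 : ((386 * (h : ℝ) + 2) ^ 2)⁻¹ * (((386 * h + 2) * 2 ^ h : ℕ) : ℝ) ^ 2 =
        ((2 ^ h * 2 ^ h : ℕ) : ℝ) := by
      push_cast
      field_simp
    rw [h3]
    exact_mod_cast h1
  · have h1 := H0066.count_le (H0066.par h) ((386 * h + 2) * 2 ^ h) hN
    have h2 : (Crest.CombinatoricsR.OrderedMatrix.orderedCopyCount H0066.H
        (H0066.A (H0066.par h) ((386 * h + 2) * 2 ^ h)) : ℝ) ≤
        2 * (((386 * h + 2) * 2 ^ h : ℕ) : ℝ) ^ 130 := by exact_mod_cast h1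
    have h3 : (0 : ℝ) < (((386 * h + 2) * 2 ^ h : ℕ) : ℝ) := by positivity
    rw [div_le_iff₀ (by positivity)]
    refine h2.trans ?_
    have h4 : ((386 * (h : ℝ) + 2) ^ 2)⁻¹ * (2 : ℝ)⁻¹ ^ h * (((386 * h + 2) * 2 ^ h : ℕ) : ℝ) ^ 2
        = 2 ^ h := by
      rw [inv_pow]
      push_cast
      field_simp
    have h5 : (2 : ℝ) ≤ 2 ^ h := by
      calc (2 : ℝ) = 2 ^ 1 := by norm_num
        _ ≤ 2 ^ h := pow_le_pow_right₀ (by norm_num) hh
    generalize (((386 * h + 2) * 2 ^ h : ℕ) : ℝ) = x at *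
    calc 2 * x ^ 130 ≤ 2 ^ h * x ^ 130 := by gcongr
      _ = _ := by rw [← h4]; ring

end Crest.Agent.S0066
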