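import Crest.Statements.S0069
import Crest.Agent.H0069.Fin

set_option autoImplicit false
open Crest Crest.CombinatoricsR

namespace Crest.Agent.S0069

/-- Some bounded subset of nine-dimensional Euclidean space with at least two points cannot be split into ten parts of strictly smaller diameter: however its points are assigned to ten classes, some class has diameter at least that of the whole set. -/
theorem result :
    ∃ S : Set (EuclideanSpace ℝ (Fin 9)), Bornology.IsBounded S ∧ S.Nontrivial ∧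
      ∀ c : EuclideanSpace ℝ (Fin 9) → Fin 10, ∃ i : Fin 10,
        Metric.diam S ≤ Metric.diam (S ∩ c ⁻¹' {i}) := by
  open Crest.Agent.H0069 Matrix in
  have hd : ∀ x ∈ U 4, ∀ y ∈ U 4, dist (ver x) (ver y) ≤ √2 := by
    intro x hx y hy
    apply Real.le_sqrt_of_sq_le
    rw [ver_dist hx hy]; nlinarith [sq_nonneg (x ⬝ᵥ y)]
  have hb : Bornology.IsBounded (ver '' U 4) := by
    rw [Metric.isBounded_iff]
    refine ⟨√2, ?_⟩
    rintro _ ⟨x, hx, rfl⟩ _ ⟨y, hy, rfl⟩
    exact hd x hx y hy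
  refine ⟨ver '' U 4, hb, ⟨_, ⟨_, single_mem_U 0, rfl⟩, _, ⟨_, single_mem_U 1, rfl⟩, ?_⟩, ?_⟩
  · intro h
    have := ver_dist (single_mem_U 0) (single_mem_U 1)
    rw [h, dist_self] at this
    simp at this
  intro c
  by_contra hc
  push Not at hc
  obtain ⟨i0, hi0⟩ := Finite.exists_max fun i => Metric.diam (ver '' U 4 ∩ c ⁻¹' {i})
  set d := Metric.diam (ver '' U 4 ∩ c ⁻¹' {i0}) with hdd
  have d0 : 0 ≤ d := Metric.diam_nonneg
  have d1 : d < √2 := (hc i0).trans_le (Metric.diam_le_of_forall_dist_le (by positivity) (by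
    rintro _ ⟨x, hx, rfl⟩ _ ⟨y, hy, rfl⟩
    exact hd x hx y hy))
  have d2 : d ^ 2 < 2 := by
    have := Real.sq_sqrt (show (0 : ℝ) ≤ 2 by norm_num)
    nlinarith
  set A : Fin 10 → Set (Fin 4 → ℝ) := fun i => {x | x ∈ U 4 ∧ c (ver x) = i} with hA
  apply no_cov (η := √(1 - d ^ 2 / 2)) (F := fun i => closure (A i))
  refine ⟨Real.sqrt_pos.2 (by linarith), fun _ => isClosed_closure,
    fun i => closure_minimal (fun x hx => hx.1) U_closed, ?_, ?_, ?_⟩
  · intro i x hx
    exact map_mem_closure continuous_neg hx fun y hy => ⟨U_neg hy.1, by rw [ver_neg]; exact hy.2⟩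
  · intro x hx
    exact ⟨_, Finset.mem_univ _, subset_closure ⟨hx, rfl⟩⟩
  · intro i x hx y hy
    have hcl : IsClosed {p : (Fin 4 → ℝ) × (Fin 4 → ℝ) | √(1 - d ^ 2 / 2) ≤ |p.1 ⬝ᵥ p.2|} :=
      isClosed_le continuous_const (by fun_prop)
    have : (x, y) ∈ closure (A i ×ˢ A i) := by rw [closure_prod_eq]; exact ⟨hx, hy⟩
    refine closure_minimal ?_ hcl this
    rintro ⟨u, v⟩ ⟨hu, hv⟩
    have h1 : dist (ver u) (ver v) ≤ d :=
      (Metric.dist_le_diam_of_mem (hb.subset Set.inter_subset_left)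
        ⟨⟨u, hu.1, rfl⟩, hu.2⟩ ⟨⟨v, hv.1, rfl⟩, hv.2⟩).trans (hi0 i)
    have h2 := ver_dist hu.1 hv.1
    show _ ≤ |u ⬝ᵥ v|
    apply Real.sqrt_le_iff.2 ⟨abs_nonneg _, ?_⟩
    rw [sq_abs]
    nlinarith [dist_nonneg (x := ver u) (y := ver v)]

end Crest.Agent.S0069
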