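import Crest.Statements.S0076
import Crest.Agent.H0076.Graph

set_option autoImplicit false
open Crest Crest.CombinatoricsR

namespace Crest.Agent.S0076

/-- Let n ≥ 2 and let H be a finite simple graph with h ≥ 1 edges on at most n vertices. Suppose the edge probability p ∈ [0, 1] is such that for every subgraph F of H the expected number of subgraphs of the binomial random graph on n labelled vertices that are isomorphic to F is at least 1/2. Then at edge probability min(1, 2^11 · e^50 · p · (1 + log₂ h)) that random graph contains a (not necessarily induced) copy of H with probability at least 1/2. -/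
theorem result
    (n : ℕ) (hn : 2 ≤ n) (W : Type) [Fintype W] [DecidableEq W] (H : SimpleGraph W)
    [DecidableRel H.Adj] (hW : Fintype.card W ≤ n) (hH : 1 ≤ H.edgeFinset.card)
    (p : ℝ) (hp0 : 0 ≤ p) (hp1 : p ≤ 1)
    (hE : ∀ F : H.Subgraph, (1 : ℝ) / 2 ≤
      Crest.CombinatoricsR.RandomGraph.gnpExpect n p (fun G => (G.copyCount F.coe : ℝ))) :
    (1 : ℝ) / 2 ≤ Crest.CombinatoricsR.RandomGraph.gnpProb n
      (min 1 (2048 * Real.exp 50 * p * (1 + Real.logb 2 (H.edgeFinset.card : ℝ))))
      {G | H.IsContained G} := by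
  classical
  obtain ⟨ι⟩ : Nonempty (W ↪ Fin n) :=
    Function.Embedding.nonempty_of_card_le (by simpa using hW)
  have hcard : Fintype.card H.edgeSet = H.edgeFinset.card := by
    rw [SimpleGraph.edgeFinset_card]
  generalize hp' : min 1 (2048 * Real.exp 50 * p * (1 + Real.logb 2 (H.edgeFinset.card : ℝ))) = p'
  have hp'1 : p' ≤ 1 := hp' ▸ min_le_left _ _
  have hp'0 : 0 ≤ p' := by
    rw [← hp']
    refine le_min zero_le_one ?_
    have : 0 ≤ Real.logb 2 (H.edgeFinset.card : ℝ) :=
      Real.logb_nonneg (by norm_num) (by exact_mod_cast hH)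
    positivity
  have h0 : ∀ b : Bool, 0 ≤ (if b then p' else 1 - p') := fun b => by
    split_ifs <;> linarith
  have h1 : ∑ b : Bool, (if b then p' else 1 - p') = 1 := by simp
  have hbad : ∑ ω : RandomGraph.EdgeSlot n → Bool,
      H0076.wt (fun b : Bool => if b then p' else 1 - p') ω *
      (if ∀ G, ¬ ∀ x ∈ Finset.univ.map (H0076.emb H ι G), ω x = true then (1:ℝ) else 0) ≤
        1 / 2 := by
    rcases le_total 1 (2048 * Real.exp 50 * p * (1 + Real.logb 2 (H.edgeFinset.card : ℝ)))
      with h | h
    · rw [min_eq_left h] at hp'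
      rw [Finset.sum_eq_zero]
      · norm_num
      intro ω _
      split_ifs with hω
      · have := hω 1
        push Not at this
        obtain ⟨x, -, hx⟩ := this
        rw [mul_one]
        refine Finset.prod_eq_zero (Finset.mem_univ x) ?_
        simp [hx, ← hp']
      · simp
    · rw [min_eq_right h] at hp'
      have := H0076.abstract_main (H0076.act n) (H0076.emb H ι) (H0076.act_emb H ι)
        (by rw [hcard]; exact hH) p hp0
        (fun I => by convert (hE (H0076.sub H I)).trans (H0076.expect_le H ι I p hp0 hp1))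
        p' hp'1 (by rw [hcard, hp'])
      convert this
  have hs := H0076.sum_wt (E := RandomGraph.EdgeSlot n) h1
  unfold RandomGraph.gnpProb FinProb.bernoulliProb
  rw [Finset.sum_filter]
  have h2 : ∑ ω : RandomGraph.EdgeSlot n → Bool,
      (H0076.wt (fun b : Bool => if b then p' else 1 - p') ω -
      H0076.wt (fun b : Bool => if b then p' else 1 - p') ω *
      (if ∀ G, ¬ ∀ x ∈ Finset.univ.map (H0076.emb H ι G), ω x = true then (1:ℝ) else 0)) ≥
        1 / 2 := by
    rw [Finset.sum_sub_distrib]
    linarith
  refine le_trans h2 (Finset.sum_le_sum fun ω _ => ?_)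
  have hw := H0076.wt_nonneg h0 ω
  have e : FinProb.bernoulliWeight p' ω =
    H0076.wt (fun b : Bool => if b then p' else 1 - p') ω := rfl
  rw [e]
  by_cases hω : ∀ G, ¬ ∀ x ∈ Finset.univ.map (H0076.emb H ι G), ω x = true
  · rw [if_pos hω, mul_one, sub_self]
    split_ifs
    · exact hw
    · exact le_rfl
  · rw [if_neg hω, mul_zero, sub_zero, if_pos]
    push Not at hω
    obtain ⟨G, hG⟩ := hω
    exact H0076.contained H ι ω G fun v => hG _ (Finset.mem_map_of_mem _ (Finset.mem_univ v))

end Crest.Agent.S0076
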