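import Crest.Statements.S0077
import Crest.Agent.H0077.Russo

set_option autoImplicit false
open Crest Crest.CombinatoricsR

namespace Crest.Agent.S0077

/-- Let n ≥ 2 and let P be a family of simple graphs on n labelled vertices that is invariant under renaming vertices, closed under adding edges, non-empty and not everything; let 0 < ε < 1/2. If the binomial random graph with edge probability p ∈ [0, 1] lies in P with probability at least ε, then at every edge probability q ∈ [0, 1] with q ≥ p + 2^19 · log(1/(2ε)) / (log n)² it lies in P with probability at least 1 - ε: the threshold interval from ε to 1 - ε is at most that long. -/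
theorem result (n : ℕ) (hn : 2 ≤ n)
    (P : Set (SimpleGraph (Fin n)))
    (hsymm : ∀ σ : Equiv.Perm (Fin n), ∀ G : SimpleGraph (Fin n), G ∈ P → G.map σ.toEmbedding ∈ P)
    (hmono : ∀ G G' : SimpleGraph (Fin n), G ≤ G' → G ∈ P → G' ∈ P)
    (hne : P.Nonempty) (hnu : P ≠ Set.univ) (ε : ℝ) (hε0 : 0 < ε) (hε : ε < 1 / 2)
    (p q : ℝ) (hp0 : 0 ≤ p) (hp1 : p ≤ 1) (hq0 : 0 ≤ q) (hq1 : q ≤ 1)
    (hp : ε ≤ Crest.CombinatoricsR.RandomGraph.gnpProb n p P)
    (hq : p + 2 ^ 19 / Real.log n ^ 2 * Real.log (1 / (2 * ε)) ≤ q) :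
    1 - ε ≤ Crest.CombinatoricsR.RandomGraph.gnpProb n q P := by
  classical
  have adj : ∀ (ω : RandomGraph.EdgeSlot n → Bool) (x y : Fin n),
      (RandomGraph.graphOf ω).Adj x y ↔ ∃ h : ¬ s(x, y).IsDiag, ω ⟨s(x, y), h⟩ = true := by
    intro ω x y
    simp only [RandomGraph.graphOf, SimpleGraph.fromEdgeSet_adj, Set.mem_ofPred_eq]
    constructor
    · exact fun h => h.1
    · rintro ⟨h, h'⟩
      exact ⟨⟨h, h'⟩, by simpa using h⟩
  let τ : Equiv.Perm (Fin n) → Equiv.Perm (RandomGraph.EdgeSlot n) := fun σ =>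
    { toFun := fun z => ⟨z.1.map σ, fun h => z.2 ((Sym2.isDiag_map σ.injective).1 h)⟩
      invFun := fun z => ⟨z.1.map σ.symm, fun h => z.2 ((Sym2.isDiag_map σ.symm.injective).1 h)⟩
      left_inv := fun z => Subtype.ext (by simp [Sym2.map_map])
      right_inv := fun z => Subtype.ext (by simp [Sym2.map_map]) }
  let f : (RandomGraph.EdgeSlot n → Bool) → ℝ := fun ω => if RandomGraph.graphOf ω ∈ P then 1 else 0
  have hmap : ∀ σ ω, (RandomGraph.graphOf (ω ∘ τ σ)).map σ.toEmbedding = RandomGraph.graphOf ω := by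
    intro σ ω
    ext x y
    obtain ⟨x, rfl⟩ := σ.surjective x
    obtain ⟨y, rfl⟩ := σ.surjective y
    have := SimpleGraph.map_adj_apply (G := RandomGraph.graphOf (ω ∘ τ σ)) (f := σ.toEmbedding)
      (a := x) (b := y)
    refine this.trans ?_
    rw [adj, adj]
    constructor
    · rintro ⟨h, h'⟩
      exact ⟨(τ σ ⟨s(x, y), h⟩).2, h'⟩
    · rintro ⟨h, h'⟩
      exact ⟨fun h2 => h (by simpa using h2), h'⟩
  have hf : ∀ σ ω, f (ω ∘ τ σ) = f ω := by
    intro σ ω
    have : RandomGraph.graphOf (ω ∘ τ σ) ∈ P ↔ RandomGraph.graphOf ω ∈ P := by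
      constructor
      · intro h; rw [← hmap σ ω]; exact hsymm _ _ h
      · intro h
        have e : ω = (ω ∘ τ σ) ∘ τ σ.symm := by
          funext z
          exact congrArg ω ((τ σ).right_inv z).symm
        rw [← hmap σ.symm (ω ∘ τ σ), ← e]; exact hsymm _ _ h
    simp only [f, this]
  have hf01 : ∀ ω, f ω = 0 ∨ f ω = 1 := fun ω => by
    by_cases h : RandomGraph.graphOf ω ∈ P <;> simp [f, h]
  have hdl : ∀ e ω, H0077.dl f e ω ^ 2 = H0077.dl f e ω := by
    intro e ω
    have hle : RandomGraph.graphOf (Function.update ω e false) ≤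
        RandomGraph.graphOf (Function.update ω e true) := by
      intro x y hxy
      rw [adj] at hxy ⊢
      obtain ⟨h, h'⟩ := hxy
      refine ⟨h, ?_⟩
      by_cases he : (⟨s(x, y), h⟩ : RandomGraph.EdgeSlot n) = e
      · rw [he]; simp
      · rw [Function.update_of_ne he] at h' ⊢; exact h'
    unfold H0077.dl
    by_cases h0 : RandomGraph.graphOf (Function.update ω e false) ∈ P
    · simp [f, h0, hmono _ _ hle h0]
    · by_cases h1 : RandomGraph.graphOf (Function.update ω e true) ∈ P <;> simp [f, h0, h1]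
  have e1 : ∀ t, RandomGraph.gnpProb n t P = H0077.Ex t f := by
    intro t
    unfold RandomGraph.gnpProb FinProb.bernoulliProb H0077.Ex
    rw [Finset.sum_filter]
    refine Finset.sum_congr rfl fun ω _ => ?_
    by_cases h : RandomGraph.graphOf ω ∈ P <;> simp [f, h]
  have hn1 : (1 : ℝ) < n := by exact_mod_cast hn
  have hl : 0 < Real.log n := Real.log_pos hn1
  have hnn : ∀ t, 0 < t → t < 1 → 0 ≤ ∑ e, H0077.Ex t (H0077.dl f e) := fun t h0 h1 =>
    Finset.sum_nonneg fun e _ => H0077.Ex_nonneg h0.le h1.le fun ω => by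
      rw [← hdl]; exact sq_nonneg _
  rw [e1] at hp ⊢
  refine H0077.ode (fun t => H0077.Ex t f) (fun t => ∑ e, H0077.Ex t (H0077.dl f e))
    (H0077.continuous_Ex f) (Real.log n ^ 2 / 2 ^ 17) (by positivity)
    (fun t h0 h1 => H0077.russo f h0 h1) hnn (fun t h0 h1 => ?_) ε hε0 hε p q hp0 hq1 hp ?_
  · have key := H0077.var_le h0 h1 (fun e : RandomGraph.EdgeSlot n => e.1.toFinset)
      (fun e e' h => Subtype.ext (Sym2.ext fun x => by
        have h' : e.1.toFinset = e'.1.toFinset := h
        rw [← Sym2.mem_toFinset, h', Sym2.mem_toFinset])) 2 le_rfl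
      (fun e => Sym2.card_toFinset_of_not_isDiag _ e.2) τ
      (fun σ e => by
        ext x
        simp only [τ, Equiv.coe_fn_mk, Sym2.mem_toFinset, Sym2.mem_map, Finset.mem_map]
        rfl)
      f hf hf01 (by rw [Fintype.card_fin]; exact hn)
    simp only [hdl, Fintype.card_fin] at key
    have e2 : ((2 : ℕ) : ℝ) / (((2 : ℕ) : ℝ) - 1) = 2 := by norm_num
    rw [e2, Real.rpow_two] at key
    have h3 := hnn t h0 h1
    have h4 : Real.log n ^ 2 / 2 ^ 17 * (384 * ((2 : ℕ) : ℝ) / Real.log n ^ 2) ≤ 1 := by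
      field_simp; norm_num
    calc _ ≤ Real.log n ^ 2 / 2 ^ 17 * (384 * ((2 : ℕ) : ℝ) / Real.log n ^ 2 *
          ∑ e, H0077.Ex t (H0077.dl f e)) := mul_le_mul_of_nonneg_left key (by positivity)
      _ ≤ _ := by rw [← mul_assoc]; exact mul_le_of_le_one_left h3 h4
  · refine le_of_eq_of_le ?_ hq
    congr 2
    field_simp; norm_num

end Crest.Agent.S0077
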