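import Crest.Statements.S0078
import Crest.Agent.H0077.Main

set_option autoImplicit false
open Crest Crest.CombinatoricsR

namespace Crest.Agent.S0078

/-- For every r ≥ 3 there is a real constant C such that for all n ≥ r, all 0 < p < 1 and every Boolean function f of the simple r-uniform hypergraph on n labelled vertices that is invariant under renaming the vertices (no monotonicity assumed), the variance of f under independent edge-coins of bias p, namely P(f = true) · (1 - P(f = true)), is at most C · (log n)^(-r/(r-1)) times the total pivotal influence of f at bias p (natural logarithm). -/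
theorem result (r : ℕ) (hr : 3 ≤ r) :
    ∃ C : ℝ, ∀ n : ℕ, r ≤ n → ∀ p : ℝ, 0 < p → p < 1 →
      ∀ f : (Crest.CombinatoricsR.HypergraphCube.HyperedgeSlot n r → Bool) → Bool,
        Crest.CombinatoricsR.HypergraphCube.IsSymmetric f →
          Crest.CombinatoricsR.HypergraphCube.probTrue p f *
              (1 - Crest.CombinatoricsR.HypergraphCube.probTrue p f) ≤
            C / Real.log n ^ ((r : ℝ) / ((r : ℝ) - 1)) *
              Crest.CombinatoricsR.HypergraphCube.totalInfluence p f := by
  refine ⟨384 * r, fun n hn p h0 h1 f hf => ?_⟩
  let τ : Equiv.Perm (Fin n) → Equiv.Perm (HypergraphCube.HyperedgeSlot n r) := fun σ =>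
    { toFun := HypergraphCube.relabelSlot σ
      invFun := HypergraphCube.relabelSlot σ.symm
      left_inv := fun e => Subtype.ext (by
        simp [HypergraphCube.relabelSlot, Finset.map_map])
      right_inv := fun e => Subtype.ext (by
        simp [HypergraphCube.relabelSlot, Finset.map_map]) }
  have key := H0077.var_le h0 h1 (fun e : HypergraphCube.HyperedgeSlot n r => e.1)
    Subtype.val_injective r (by omega) (fun e => e.2) τ (fun σ e => rfl)
    (fun ω => if f ω = true then 1 else 0)
    (fun σ ω => by
      have : f (ω ∘ τ σ) = f ω := hf σ ω
      simp only [this])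
    (fun ω => by by_cases h : f ω = true <;> simp [h])
    (by rw [Fintype.card_fin]; omega)
  have e1 : HypergraphCube.probTrue p f = H0077.Ex p (fun ω => if f ω = true then 1 else 0) := by
    unfold HypergraphCube.probTrue FinProb.bernoulliProb H0077.Ex
    rw [Finset.sum_filter]
    refine Finset.sum_congr rfl fun ω _ => ?_
    by_cases h : f ω = true <;> simp [h]
  have e2 : HypergraphCube.totalInfluence p f =
      ∑ e, H0077.Ex p (fun ω => H0077.dl (fun ω => if f ω = true then 1 else 0) e ω ^ 2) := by
    unfold HypergraphCube.totalInfluence
    refine Finset.sum_congr rfl fun e _ => ?_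
    unfold HypergraphCube.pivotalInfluence FinProb.bernoulliProb H0077.Ex H0077.dl
    rw [Finset.sum_filter]
    refine Finset.sum_congr rfl fun ω _ => ?_
    cases h : f (Function.update ω e true) <;> cases h' : f (Function.update ω e false) <;>
      simp [h, h']
  rw [e1, e2]
  simpa only [Fintype.card_fin] using key

end Crest.Agent.S0078
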