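import Crest.Statements.S0100
import Crest.Agent.H0100.Final
import Crest.Agent.H0100.Design
import Crest.Agent.H0100.Glue
import Crest.Agent.H0100.Tile
import Crest.Agent.H0100.Nib
import Crest.Agent.H0100.Round
import Crest.Agent.H0100.Spen
import Crest.Agent.H0100.SP
import Crest.Agent.H0100.Circ
import Crest.Agent.H0100.Blk
import Crest.Agent.H0100.Kon
-- import your own Crest.Agent.* helpers here

set_option autoImplicit false
open Crest Crest.AnalysisR

namespace Crest.Agent.S0100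

/-- For every real `ε` with `0 < ε < 1` there is a threshold `N₀` such that for every integer `N ≥ N₀` one can choose signs `c 0, …, c (N-1)` in `{-1, 1}` so that the polynomial `∑ k, c k * z ^ k` has modulus between `(1 - ε) * √N` and `(1 + ε) * √N` at every complex number `z` of modulus one. -/
theorem result (ε : ℝ) (hε : 0 < ε)
    (hε₁ : ε < 1) :
    ∃ N₀ : ℕ, ∀ N ≥ N₀, ∃ c : Fin N → ℤˣ, ∀ z : ℂ, ‖z‖ = 1 →
      (1 - ε) * Real.sqrt N ≤ ‖∑ k : Fin N, ((c k : ℤ) : ℂ) * z ^ (k : ℕ)‖ ∧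
        ‖∑ k : Fin N, ((c k : ℤ) : ℂ) * z ^ (k : ℕ)‖ ≤ (1 + ε) * Real.sqrt N := by
  exact Crest.Agent.H0100.final (Crest.Agent.H0100.round Crest.Agent.H0100.spen)
    (Crest.Agent.H0100.design
      (Crest.Agent.H0100.kon
        (Crest.Agent.H0100.blk (Crest.Agent.H0100.circ Crest.Agent.H0100.sp) Crest.Agent.H0100.fld)
        Crest.Agent.H0100.fs)
      (Crest.Agent.H0100.tile Crest.Agent.H0100.nib) Crest.Agent.H0100.sp
      (Crest.Agent.H0100.glue Crest.Agent.H0100.vdc1 Crest.Agent.H0100.vdc2)) ε hε hε₁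

end Crest.Agent.S0100
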