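import Crest.Statements.S0103
import Crest.Agent.KN.ABS
import Crest.Agent.KN.ADS
import Crest.Agent.KN.AVG
import Crest.Agent.KN.BAND
import Crest.Agent.KN.CUT
import Crest.Agent.KN.DRIFT
import Crest.Agent.KN.GOOD
import Crest.Agent.KN.INF
import Crest.Agent.KN.LEG
import Crest.Agent.KN.LEG0
import Crest.Agent.KN.LIFT
import Crest.Agent.KN.LOC
import Crest.Agent.KN.MART
import Crest.Agent.KN.NET
import Crest.Agent.KN.POLY
import Crest.Agent.KN.RED
import Crest.Agent.KN.SCAL1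
import Crest.Agent.KN.SCAL2
import Crest.Agent.KN.SUM
import Crest.Agent.KN.TOW
import Crest.Agent.KN.TT
import Crest.Agent.KN.TWA
import Crest.Agent.KN.UNDO
import Crest.Agent.KN.VV
import Crest.Agent.KN.WL
import Crest.Agent.KS.N4

set_option autoImplicit false
open Crest Crest.AnalysisR Crest.AnalysisR.OperatorAlgebra

namespace Crest.Agent.S0103

/-- For every ε > 0 there is δ > 0 such that, for every complex Hilbert space H and all von Neumann algebras M and N on H for which every element of norm at most 1 of either algebra lies within operator-norm distance less than δ of some element of norm at most 1 of the other, there is a unitary operator u on H with ‖u − 1‖ < ε and u M u⋆ = N (the elements of N are exactly the conjugates u x u⋆ of elements x of M). -/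
theorem result (ε : ℝ) (hε : 0 < ε) :
    ∃ δ : ℝ, 0 < δ ∧
      ∀ (H : Type*) [NormedAddCommGroup H] [InnerProductSpace ℂ H] [CompleteSpace H] (M N : VonNeumannAlgebra H),
        (∀ x ∈ M, ‖x‖ ≤ 1 → ∃ y ∈ N, ‖y‖ ≤ 1 ∧ ‖x - y‖ < δ) →
        (∀ y ∈ N, ‖y‖ ≤ 1 → ∃ x ∈ M, ‖x‖ ≤ 1 ∧ ‖y - x‖ < δ) →
        ∃ u : H →L[ℂ] H, u ∈ unitary (H →L[ℂ] H) ∧ ‖u - 1‖ < ε ∧
          ∀ y : H →L[ℂ] H, y ∈ N ↔ ∃ x ∈ M, y = u * x * star u := by
  obtain ⟨C₀, h0, hA⟩ := KN.ads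
  have hT := KN.jobTWA KN.jobAVG
  obtain ⟨C₁, h1, hL⟩ := KN.lift h0 hA KN.jobAVG hT
  obtain ⟨C₂, δ₀, h2, h3, hG⟩ := KN.good h1 KN.jobWL KN.jobAVG hT hL (KN.jobMART KN.jobAVG hT)
  obtain ⟨C, δ₁, h4, h5, hW⟩ := KN.walk h1 h2 h3 KN.jobTOW KN.jobAVG hT
    (KN.jobDRIFT KN.jobAVG hT) hL hG (KN.vv h1 hL hT)
  exact KS.s103 (by positivity) h5 (KN.jobNET KN.jobWL C δ₁ h4 (KN.loc h4 (KN.leg KN.jobRED KN.jobTT
    (KN.leg0 (KN.jobINF KN.jobPOLY KN.jobABS) (KN.jobCUT KN.jobPOLY)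
      (KN.jobBAND (KN.jobSCAL KN.jobSCAL1))) KN.jobSUM) hW)) ε hε

end Crest.Agent.S0103
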