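import Crest.Statements.S0109
import Crest.Agent.H0082.Disc

set_option autoImplicit false
open MeasureTheory
open scoped ENNReal NNReal
open Crest.AnalysisR.OT
open Crest Crest.AnalysisR Crest.AnalysisR.OT

namespace Crest.Agent.S0109

/-- Fix d ≥ 2, a compact convex K ⊆ ℝᵈ with nonempty interior, ρ the uniform probability measure on K, and a nonempty compact Y ⊆ ℝᵈ. There is a constant C such that for all probability measures μ, ν carried by Y, all quadratic optimal transport maps Tμ from ρ to μ and Tν from ρ to ν, and every coupling π of μ and ν, ∫ ‖Tμ - Tν‖² dρ ≤ C · (∫ ‖y - z‖² dπ)^(1/3). With the best coupling: the L²(ρ) distance of the maps is at most √C times the cube root of the Wasserstein-2 distance of the targets. -/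
theorem result
    (d : ℕ) (hd : 2 ≤ d) (K : Set (EuclideanSpace ℝ (Fin d))) (hKc : IsCompact K) (hKv : Convex ℝ K)
    (hKi : (interior K).Nonempty) (Y : Set (EuclideanSpace ℝ (Fin d))) (hYc : IsCompact Y) (hYn : Y.Nonempty) :
    ∃ C : ℝ≥0, ∀ μ ν : Measure (EuclideanSpace ℝ (Fin d)), IsProbabilityOn Y μ → IsProbabilityOn Y ν →
      ∀ Tμ Tν : EuclideanSpace ℝ (Fin d) → EuclideanSpace ℝ (Fin d),
        IsOptimalMap (uniformProbOn K) μ Tμ → IsOptimalMap (uniformProbOn K) ν Tν →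
        ∀ π : Measure (EuclideanSpace ℝ (Fin d) × EuclideanSpace ℝ (Fin d)), IsPairCoupling μ ν π →
          ∫⁻ x, ‖Tμ x - Tν x‖ₑ ^ 2 ∂(uniformProbOn K) ≤ C * quadCost π ^ (1 / 3 : ℝ) := by
  obtain ⟨R₁, hR₁⟩ := hKc.isBounded.exists_norm_le
  obtain ⟨R₂, hR₂⟩ := hYc.isBounded.exists_norm_le
  set R := |R₁| + |R₂| + 1 with hR
  have hR0 : 0 < R := by positivity
  have hKR : ∀ x ∈ K, ‖x‖ ≤ R := fun x hx => by
    linarith [hR₁ x hx, le_abs_self R₁, abs_nonneg R₂]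
  have hYR : ∀ x ∈ Y, ‖x‖ + 1 ≤ R := fun x hx => by
    linarith [hR₂ x hx, le_abs_self R₂, abs_nonneg R₁]
  have h := H0082.src_uniform hKc hKv hKi hR0 hKR
  obtain ⟨c, hc, hK⟩ := H0082.shrink_uniform hKc hKv hKi
  have hC : (0 : ℝ) ≤ 2 * d * (8 * 120006 * R ^ 2 + 12 * R ^ 2 * c) := by positivity
  refine ⟨⟨_, hC⟩, fun μ ν hμ hν T S hT hS π hπ => ?_⟩
  have hμ' : ∀ᵐ w ∂μ, w ∈ Y := hμ.2
  have hν' : ∀ᵐ w ∂ν, w ∈ Y := hν.2
  have key := H0082.stab h (by omega) hK hKR hYc hYR hμ' hν' hT hS hπ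
  have := h.prob
  have := hμ.1
  have : IsProbabilityMeasure π := ⟨by
    have := congrArg (fun m : Measure (EuclideanSpace ℝ (Fin d)) => m Set.univ) hπ.1
    simpa [Measure.map_apply measurable_fst MeasurableSet.univ] using this⟩
  have hμR : ∀ᵐ w ∂μ, ‖w‖ ≤ R := hμ'.mono fun w hw => by linarith [hYR w hw]
  have hνR : ∀ᵐ w ∂ν, ‖w‖ ≤ R := hν'.mono fun w hw => by linarith [hYR w hw]
  have hπ1 : ∀ᵐ p ∂π, ‖p.1‖ ≤ R := by
    rw [← hπ.1] at hμR; exact ae_of_ae_map measurable_fst.aemeasurable hμR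
  have hπ2 : ∀ᵐ p ∂π, ‖p.2‖ ≤ R := by
    rw [← hπ.2] at hνR; exact ae_of_ae_map measurable_snd.aemeasurable hνR
  rw [quadCost, H0082.lint_sq_eq (H0082.int_sq_of_bdd measurable_fst measurable_snd hπ1 hπ2),
    H0082.lint_sq_eq (H0082.int_sq_of_bdd hT.1 hS.1 (H0082.ae_bdd_of_map hT.1 hT.2.1 hμR)
      (H0082.ae_bdd_of_map hS.1 hS.2.1 hνR)),
    ENNReal.ofReal_rpow_of_nonneg (integral_nonneg fun _ => sq_nonneg _) (by norm_num),
    ← ENNReal.ofReal_coe_nnreal, ← ENNReal.ofReal_mul (NNReal.coe_nonneg _)]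
  exact ENNReal.ofReal_le_ofReal key

end Crest.Agent.S0109
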