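import Crest.Statements.S0120
import Crest.Agent.LE.Main

set_option autoImplicit false
open Crest Crest.AnalysisR

namespace Crest.Agent.S0120

/-- There are separable real Banach spaces X and Y and a bijection Ψ from X to Y with (4/21) * ‖s - t‖ ≤ ‖Ψ s - Ψ t‖ ≤ (76/25) * ‖s - t‖ for all s, t in X, such that X contains a linearly isometric copy of c₀(ℓ₂), Y has no closed linear subspace linearly homeomorphic to c₀(ℓ₂), and X and Y are not linearly homeomorphic. Here ℓ₂ is the real Hilbert space of square-summable real sequences and c₀(ℓ₂) is the space of ℓ₂-valued sequences tending to zero, with the supremum norm. -/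
theorem result :
    ∃ (X : Type) (_ : NormedAddCommGroup X) (_ : NormedSpace ℝ X)
      (Y : Type) (_ : NormedAddCommGroup Y) (_ : NormedSpace ℝ Y),
      CompleteSpace X ∧ TopologicalSpace.SeparableSpace X ∧
      CompleteSpace Y ∧ TopologicalSpace.SeparableSpace Y ∧
      (∃ Ψ : X → Y, Function.Bijective Ψ ∧
        ∀ s t : X, (4 / 21 : ℝ) * ‖s - t‖ ≤ ‖Ψ s - Ψ t‖ ∧ ‖Ψ s - Ψ t‖ ≤ (76 / 25 : ℝ) * ‖s - t‖) ∧
      Nonempty (ZeroAtInftyContinuousMap ℕ (lp (fun _ : ℕ => ℝ) 2) →ₗᵢ[ℝ] X) ∧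
      (∀ S : Submodule ℝ Y, IsClosed (S : Set Y) →
        IsEmpty (S ≃L[ℝ] ZeroAtInftyContinuousMap ℕ (lp (fun _ : ℕ => ℝ) 2))) ∧
      IsEmpty (X ≃L[ℝ] Y) := by
  obtain ⟨Z, i1, i2, hc, hs, hfree, Ψ, h1, h2⟩ := Crest.Agent.LE.main
  haveI := Crest.Agent.LE.l2_separable
  haveI : TopologicalSpace.SeparableSpace (ZeroAtInftyContinuousMap ℕ Crest.Agent.LE.L2) :=
    Crest.Agent.LE.c0_separable
  have hx : (lp.single 2 0 (1 : ℝ) : Crest.Agent.LE.L2) ≠ 0 := fun h => by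
    have := congrArg (fun v : Crest.Agent.LE.L2 => v 0) h
    simp at this
  have hn : ∀ s t, ‖(9 / 10 : ℝ) • Ψ s - (9 / 10 : ℝ) • Ψ t‖ = 9 / 10 * ‖Ψ s - Ψ t‖ := fun s t => by
    rw [← smul_sub, norm_smul, Real.norm_of_nonneg (by norm_num)]
  refine ⟨Z × ZeroAtInftyContinuousMap ℕ Crest.Agent.LE.L2, inferInstance, inferInstance, Z,
    inferInstance, inferInstance, inferInstance, inferInstance, hc, hs,
    ⟨fun s => (9 / 10 : ℝ) • Ψ s, ⟨fun s t h => ?_, fun z => ?_⟩, fun s t => ?_⟩,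
    ⟨LinearIsometry.inr ℝ Z _⟩, fun S _ => hfree.isEmpty _ hx S, ⟨fun e => ?_⟩⟩
  · have a1 := hn s t
    have a2 := (h2 s t).1
    simp only at h
    rw [h, sub_self, norm_zero] at a1
    rw [← sub_eq_zero, ← norm_le_zero_iff]
    linarith
  · obtain ⟨s, hs⟩ := h1 ((10 / 9 : ℝ) • z)
    exact ⟨s, by simp only [hs, smul_smul]; norm_num⟩
  · rw [hn]
    obtain ⟨a1, a2⟩ := h2 s t
    have := norm_nonneg (s - t)
    constructor <;> linarith
  · refine hfree.no_c0 _ hx (e.toContinuousLinearMap.comp (ContinuousLinearMap.inr ℝ Z _))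
      ‖e.symm.toContinuousLinearMap‖ fun v => ?_
    simpa using e.symm.toContinuousLinearMap.le_opNorm (e (0, v))

end Crest.Agent.S0120
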