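import Crest.Statements.S0121
import Crest.Agent.LE.Shift

set_option autoImplicit false
open Crest Crest.AnalysisR

namespace Crest.Agent.S0121

/-- There is a separable real Banach space Z with no closed linear subspace linearly homeomorphic to c₀ and a map F from Z ⊕_∞ c₀ onto Z that is bi-Lipschitz: c‖u − v‖ ≤ ‖F u − F v‖ ≤ C‖u − v‖ for some constants 0 < c ≤ C and all u, v. Here c₀ is the space of real sequences tending to zero with the supremum norm, and Z ⊕_∞ c₀ is the product with the maximum norm. -/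
theorem result :
    ∃ (Z : Type) (_ : NormedAddCommGroup Z) (_ : NormedSpace ℝ Z),
      CompleteSpace Z ∧ TopologicalSpace.SeparableSpace Z ∧
      (∀ S : Submodule ℝ Z, IsClosed (S : Set Z) →
        IsEmpty (S ≃L[ℝ] ZeroAtInftyContinuousMap ℕ ℝ)) ∧
      ∃ F : Z × ZeroAtInftyContinuousMap ℕ ℝ → Z, Function.Surjective F ∧
        ∃ c C : ℝ, 0 < c ∧
          ∀ u v : Z × ZeroAtInftyContinuousMap ℕ ℝ,
            c * ‖u - v‖ ≤ ‖F u - F v‖ ∧ ‖F u - F v‖ ≤ C * ‖u - v‖ := by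
  obtain ⟨Z, i1, i2, hc, hs, hfree, Ψ, h1, h2⟩ := Crest.Agent.LE.main
  obtain ⟨j, hj1, hj2⟩ := Crest.Agent.LE.exists_absorb
  choose G hG using h1
  have hGΨ : ∀ s, G (Ψ s) = s := fun s => by
    have := (h2 (G (Ψ s)) s).1
    rw [hG, sub_self, norm_zero, mul_zero, norm_le_zero_iff, sub_eq_zero] at this
    exact this
  refine ⟨Z, i1, i2, hc, hs, fun S _ => hfree.isEmpty (1 : ℝ) one_ne_zero S,
    fun u => Ψ ((G u.1).1, j ((G u.1).2, u.2)), fun z => ?_, 1 / 20, 40, by norm_num,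
    fun u v => ?_⟩
  · obtain ⟨y, hy⟩ := hj1 (G z).2
    refine ⟨(Ψ ((G z).1, y.1), y.2), ?_⟩
    simp only [hGΨ, Prod.mk.eta, hy, hG]
  · obtain ⟨a1, a2⟩ := h2 ((G u.1).1, j ((G u.1).2, u.2)) ((G v.1).1, j ((G v.1).2, v.2))
    obtain ⟨b1, b2⟩ := h2 (G u.1) (G v.1)
    obtain ⟨c1, c2⟩ := hj2 ((G u.1).2, u.2) ((G v.1).2, v.2)
    rw [hG, hG] at b1 b2
    simp only [Prod.norm_def, Prod.fst_sub, Prod.snd_sub] at a1 a2 b1 b2 c1 c2 ⊢
    set A := ‖(G u.1).1 - (G v.1).1‖
    set B := ‖(G u.1).2 - (G v.1).2‖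
    set C := ‖u.2 - v.2‖
    set D := ‖u.1 - v.1‖
    set E := ‖j ((G u.1).2, u.2) - j ((G v.1).2, v.2)‖
    set N := ‖Ψ ((G u.1).1, j ((G u.1).2, u.2)) - Ψ ((G v.1).1, j ((G v.1).2, v.2))‖
    have hN : 0 ≤ N := norm_nonneg _
    have hD : 0 ≤ D := norm_nonneg _
    rw [max_le_iff] at a1 b1 c1
    have m1 := le_max_left D C
    have m2 := le_max_right D C
    constructor
    · have d1 : max A B ≤ 33 / 10 * N := max_le a1.1 (by linarith [c1.1, a1.2])
      have d2 : max D C ≤ 20 * N := max_le (by linarith) (by linarith [c1.2, a1.2])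
      linarith
    · have d1 : max B C ≤ 33 / 10 * max D C := max_le (by linarith [b1.2]) (by linarith)
      have d2 : max A E ≤ 66 / 10 * max D C := max_le (by linarith [b1.1]) (by linarith)
      linarith

end Crest.Agent.S0121
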