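import Crest.Statements.S0154
import Crest.Agent.H0154.Core
import Crest.Agent.H0154.Space

set_option autoImplicit false
open Crest Crest.AnalysisR

namespace Crest.Agent.S0154

open Crest.Agent.H0154

/-- the constant `L` -/
def LL (k : ℕ) : ℕ := 16 * (k + 1) * (k + 1) + 16 * (k + 1) + 2

/-- the radius -/
def RR (k : ℕ) : ℕ := 16 * (1 + 2 * LL k)

/-- the degree -/
def DD (k : ℕ) : ℕ := 12 * LL k + 11

/-- index type of the moves -/
abbrev II (k : ℕ) : Type := Fin (2 * DD k * DD k) × Fin (2 * DD k)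

theorem level (k : ℕ) : ∃ (S : Type) (_ : Nonempty S) (s : II k → S → S)
    (_ : ∀ j x, s j (s j x) = x) (_ : Inj s (RR k)) (G : ℕ → Gr s),
    (∀ n, DD k * Fintype.card (G n).V ≤ (G n).E.card + 2 * Fintype.card (G n).V) ∧
      ∀ m n, m < n → (G m).Apart (G n) := by
  obtain ⟨S, _, hne, s, hs, hI⟩ := exists_girth (II k) (RR k)
  obtain ⟨G, h1, h2⟩ := exists_seq (DD k) (by unfold DD; omega) s hs
  exact ⟨S, hne, s, hs, hI, G, h1, h2⟩

/-- There is a countable pointed metric space P, unbounded, not proper, with distinct points at distance ≥ 1, whose (real) free space FreeSpace P (completion of the finitely supported molecules ∑ aₓ δₓ under the seminorm: sup of abs (∑ aₓ f x) over real 1-Lipschitz f vanishing at the base point) has the approximation property but not the bounded approximation property: finite-rank bounded operators approximate the identity uniformly on compact sets, but never with a common norm bound. -/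
theorem result :
    ∃ P : Crest.AnalysisR.PointedMetric, P.IsCountableSeparatedUnboundedNonproper ∧
      Crest.AnalysisR.HasAP P.FreeSpace ∧ ¬ Crest.AnalysisR.HasBAP P.FreeSpace := by
  classical
  choose S hne s hs hI G hD hA using level
  let X : Sp :=
    { U := fun k => UV (G k)
      R := RR
      c := fun k u u' a => (a = 1 ∧ ∃ j, u' = ut (G k) j u) ∨
        (a = 16 * ((k : ℝ) + 1) ∧ (G k u.1).π u.2 = (G k u'.1).π u'.2)
      mono := fun a b h => by unfold RR LL; gcongr
      big := fun k => by unfold RR LL; omega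
      one := fun k u u' a h => by
        rcases h with h | h
        · exact h.1.ge
        · rw [h.1]; linarith [Nat.cast_nonneg (α := ℝ) k] }
  refine ⟨X.P, X.basic (fun k => inferInstanceAs (Countable (UV (G k)))) (fun k => ?_), X.ap,
    fun h => ?_⟩
  · obtain ⟨σ⟩ := hne k
    choose v _ using fun n => (G k n).surj σ
    exact Infinite.of_injective (fun n => (⟨n, v n⟩ : UV (G k))) fun a b h => congrArg Sigma.fst h
  obtain ⟨lam, h⟩ := X.bap h
  obtain ⟨k, hk⟩ := exists_nat_ge lam
  obtain ⟨T, Z, h1, h2, h3⟩ :=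
    h k (Finset.univ.image fun v : (G k 0).V => (⟨0, v⟩ : UV (G k)))
  have := hne k
  have hR : 1 ≤ RR k := by unfold RR; omega
  have hk0 : (0 : ℝ) ≤ k := Nat.cast_nonneg k
  have hB : ∀ f l, (uctx (G k) (RR k) hR (hs k) (hI k)).Adm (16 * ((k : ℝ) + 1)) f l →
      X.B k f l := fun f l hf => ⟨hf.bd, fun u u' a hc => by
    rcases hc with ⟨rfl, j, rfl⟩ | ⟨rfl, e⟩
    · rw [mul_one]; exact hf.edge j u
    · exact hf.fib u u' e⟩
  have hL : (LL k : ℝ) = 16 * (k + 1) * (k + 1) + 16 * (k + 1) + 2 := by simp [LL]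
  have hRR : (RR k : ℝ) = 16 * (1 + 2 * LL k) := by simp [RR]
  refine core (G k) (RR k) hR (hs k) (hI k) (DD k) (hD k) (hA k) T (k + 1) (16 * ((k : ℝ) + 1))
    (LL k) ⟨by linarith, rfl, Nat.cast_nonneg _, ?_, hRR.ge, ?_, ?_⟩ (by simp [DD]; linarith)
    (Z.sup (fun z : UV (G k) => z.1) + 1) fun p f hf => h3 p f fun z hz => hf z ?_
  · change _ ≤ (RR k : ℝ)
    rw [hRR, hL]; nlinarith
  · intro j p f l hl hf
    refine (h1 p _ 1 f l (Or.inl ⟨rfl, j, rfl⟩) hl (hB f l hf)).trans ?_
    exact mul_le_mul_of_nonneg_right (by linarith) hl.le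
  · intro p f l hl hf
    obtain ⟨v, hv⟩ := (G k 0).surj ((G k p.1).π p.2)
    have e1 := h1 p ⟨0, v⟩ _ f l (Or.inr ⟨rfl, hv.symm⟩) hl (hB f l hf)
    have e2 := h2 ⟨0, v⟩ (Finset.mem_image_of_mem _ (Finset.mem_univ _)) f l hl (hB f l hf)
    have e3 := hf.fib ⟨0, v⟩ p hv
    have e4 := abs_sub_le (T p f) (T ⟨0, v⟩ f) (f p)
    have e5 := abs_sub_le (T ⟨0, v⟩ f) (f ⟨0, v⟩) (f p)
    have e6 : lam * (16 * ((k : ℝ) + 1)) * l ≤ (k + 1) * (16 * ((k : ℝ) + 1)) * l := by
      gcongr; linarith
    rw [hL]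
    nlinarith
  · exact Nat.lt_succ_of_le (Finset.le_sup (f := fun z : UV (G k) => z.1) hz)

end Crest.Agent.S0154
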