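import Crest.Statements.S0160
import Crest.Agent.NAI.Model

set_option autoImplicit false
open Crest Crest.AnalysisR Crest.AnalysisR.OperatorAlgebra

namespace Crest.Agent.S0160

open Crest.Agent.NAI in
lemma unital {B H : Type} [CStarAlgebra B] [NormedAddCommGroup H] [InnerProductSpace ℂ H]
    [CompleteSpace H] (π : B →⋆ₙₐ[ℂ] (H →L[ℂ] H)) (h : Crest.OpAlg.IsIrreducibleRep π) :
    ∃ σ : B →⋆ₐ[ℂ] (H →L[ℂ] H), Irr σ ∧ ∀ b, σ b = π b := by
  have h0 : ∀ a v, π a v ∈ (1 - π 1).ker := fun a v => by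
    change π a v - π 1 (π a v) = 0
    rw [← mul_apply_eq_comp, ← map_mul, one_mul, sub_self]
  have h1 : π 1 = 1 := by
    rcases h.2 _ (1 - π 1).isClosed_ker (fun a v _ => h0 a v) with h2 | h2
    · exfalso; apply h.1
      ext a v
      have := h0 a v
      rwa [h2, Submodule.mem_bot] at this
    · ext v
      have : v ∈ (1 - π 1).ker := h2 ▸ Submodule.mem_top
      exact (sub_eq_zero.1 this).symm
  refine ⟨{ π with
    map_one' := h1
    commutes' := fun c => by
      change π _ = _
      rw [Algebra.algebraMap_eq_smul_one, map_smul, h1, Algebra.algebraMap_eq_smul_one] },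
    ⟨?_, h.2⟩, fun b => rfl⟩
  by_contra hn
  push Not at hn
  apply h.1
  ext a v
  exact hn _

open scoped ComplexOrder in
open Crest.Agent.NAI in
/-- There is a unital complex C⋆-algebra A that is infinite-dimensional, is simple (its only closed two-sided ideals are the zero ideal and A), carries a faithful tracial state, and whose irreducible representations on complex Hilbert spaces are pairwise unitarily equivalent. A representation is a ⋆-homomorphism into the bounded operators on a Hilbert space, not required to preserve the unit; irreducible ones are nonzero by definition; A and the Hilbert spaces are taken in the lowest universe. -/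
theorem result :
    ∃ (A : Type) (_ : CStarAlgebra A),
      ¬ FiniteDimensional ℂ A ∧
      (∀ I : TwoSidedIdeal A, IsClosed (I : Set A) → I = ⊥ ∨ I = ⊤) ∧
      (∃ τ : A →ₗ[ℂ] ℂ, Crest.OpAlg.IsFaithfulTracialState τ) ∧
      ∀ (H₁ : Type) [NormedAddCommGroup H₁] [InnerProductSpace ℂ H₁] [CompleteSpace H₁]
        (H₂ : Type) [NormedAddCommGroup H₂] [InnerProductSpace ℂ H₂] [CompleteSpace H₂]
        (π₁ : A →⋆ₙₐ[ℂ] (H₁ →L[ℂ] H₁)) (π₂ : A →⋆ₙₐ[ℂ] (H₂ →L[ℂ] H₂)),
        Crest.OpAlg.IsIrreducibleRep π₁ → Crest.OpAlg.IsIrreducibleRep π₂ →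
          Crest.OpAlg.AreUnitarilyEquivalent π₁ π₂ := by
  obtain ⟨A, _, S, R, x, h1, h2, h3⟩ := exists_sys
  let φ : A →ₗ[ℂ] ℂ :=
    { toFun := fun b => inner ℂ x (R.π b x)
      map_add' := by simp
      map_smul' := by simp }
  have hφ : ∀ b, φ b = inner ℂ x (R.π b x) := fun b => rfl
  obtain ⟨τ, hτ, ht⟩ := hypertrace S (StarAlgHom.id ℂ A) (φ := φ)
    ⟨by simp [hφ, h1], fun b => isSt_vec _ _ _⟩ fun n => by simp [hφ, h1, h2]
  obtain ⟨M⟩ := exists_fam hτ ht R x h1 h2 h3
  obtain ⟨B, _, ⟨g⟩⟩ := exists_glue M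
  obtain ⟨T, hT, hT'⟩ := g.trace
  refine ⟨B, inferInstance, fun hfin => ?_, fun I _ => g.simple I, ⟨T, hT.1, fun a => ?_,
    fun a ha => ?_, hT'⟩, fun H₁ _ _ _ H₂ _ _ _ π₁ π₂ i₁ i₂ => ?_⟩
  · set m := Module.finrank ℂ B
    have : Function.Injective (g.ι.comp (S.ρ m)).toAlgHom.toLinearMap := by
      rw [injective_iff_map_eq_zero]
      intro N hN
      change g.ι (S.ρ m N) = 0 at hN
      have := S.tr_ρ (τ := T ∘ₗ g.ι.toAlgHom.toLinearMap) (by simpa using hT.1)
        (fun a b => by simpa using hT' _ _) m (star N * N)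
      change T (g.ι _) = _ at this
      rw [map_mul, map_mul, hN, mul_zero, map_zero, eq_comm, div_eq_zero_iff] at this
      exact Matrix.trace_conjTranspose_mul_self_eq_zero_iff.1 (this.resolve_right (by simp))
    have := LinearMap.finrank_le_finrank_of_injective this
    rw [Module.finrank_matrix, Fintype.card_fin, Module.finrank_self] at this
    have h := Nat.lt_two_pow_self (n := m)
    nlinarith
  · have := Complex.nonneg_iff.1 (hT.2 a)
    exact ⟨this.2.symm, this.1⟩
  · let N : TwoSidedIdeal B := TwoSidedIdeal.mk' {x | ∀ y, T (y * x) = 0} (by simp)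
      (fun ha hb y => by rw [mul_add, map_add, ha y, hb y, add_zero])
      (fun ha y => by rw [mul_neg, map_neg, ha y, neg_zero])
      (fun ha y => by rw [← mul_assoc, ha])
      (fun ha y => by rw [← mul_assoc, hT', ← mul_assoc, ha])
    have hN : ∀ x, x ∈ N ↔ ∀ y, T (y * x) = 0 := fun x => TwoSidedIdeal.mem_mk' ..
    rcases g.simple N with h | h
    · rw [← TwoSidedIdeal.mem_bot, ← h, hN]
      intro y
      simpa [ha] using hT.norm_mul_le y a
    · have := (hN 1).1 (h ▸ TwoSidedIdeal.mem_top B) 1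
      simp [hT.1] at this
  · obtain ⟨σ₁, j₁, e₁⟩ := unital π₁ i₁
    obtain ⟨σ₂, j₂, e₂⟩ := unital π₂ i₂
    obtain ⟨W₁, hW₁⟩ := g.equiv j₁
    obtain ⟨W₂, hW₂⟩ := g.equiv j₂
    refine ⟨W₁.symm.trans W₂, fun a v => ?_⟩
    obtain ⟨w, rfl⟩ := W₁.surjective v
    simp [← e₁, ← e₂, ← hW₁, hW₂]

end Crest.Agent.S0160
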