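import Crest.Statements.S0163
import Crest.Agent.H0163.Asm
import Crest.Agent.H0163.Hom
import Crest.Agent.H0163.Ent
import Crest.Agent.H0163.Mfd

set_option autoImplicit false
open scoped Manifold ContDiff
open Crest Crest.AnalysisR

namespace Crest.Agent.S0163

/-- There is a compact smooth manifold without boundary (of some finite dimension, modelled on Euclidean space, with a compatible metric) carrying a continuously differentiable self-map whose topological entropy is zero while the map it induces on second singular homology with real coefficients has `2` as an eigenvalue; so topological entropy can be strictly smaller than the logarithm of the homological spectral radius for `C¹` self-maps. -/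
theorem result :
    ∃ (n : ℕ) (M : Type) (_ : MetricSpace M) (_ : CompactSpace M) (_ : Nonempty M)
      (_ : ChartedSpace (EuclideanSpace ℝ (Fin n)) M)
      (_ : IsManifold (modelWithCornersSelf ℝ (EuclideanSpace ℝ (Fin n))) ∞ M)
      (f : C(M, M)),
      ContMDiff (modelWithCornersSelf ℝ (EuclideanSpace ℝ (Fin n)))
          (modelWithCornersSelf ℝ (EuclideanSpace ℝ (Fin n))) 1 ⇑f ∧
        Dynamics.coverEntropy ⇑f Set.univ = 0 ∧
        Module.End.HasEigenvalue
          (((AlgebraicTopology.singularHomologyFunctor (ModuleCat.{0} ℝ) 2).obj
              (ModuleCat.of ℝ ℝ)).map (TopCat.ofHom f)).hom (2 : ℝ) := by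
  obtain ⟨n, inst, hM, h⟩ := H0163.jobM
  have h1 := h H0163.ff H0163.GA H0163.contDiffAt_GA H0163.emb_ff
  exact ⟨n, H0163.MM, inferInstance, inferInstance, ⟨(1, H0163.NP, H0163.NP, H0163.NP, H0163.NP)⟩,
    inst, hM, ⟨H0163.ff, h1.continuous⟩, h1, H0163.entropy_ff H0163.jobE,
    H0163.jobH _ _ H0163.io ⟨fun x => x.2.1, by fun_prop⟩ H0163.gg (fun _ => rfl) H0163.gg_spec
      (H0163.homotopic_ff h1.continuous)⟩

end Crest.Agent.S0163
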