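import Crest.Statements.S0167
import Crest.Agent.H0125.Daug

set_option autoImplicit false
open Crest Crest.AnalysisR

namespace Crest.Agent.S0167

/-- Let E be an infinite-dimensional closed subspace of the real L¹ of a probability space whose closed unit ball is totally bounded for convergence in measure and whose norm has the Daugavet property. Then at every unit x ∈ E and every t > 0 the averaged midpoint quantity sup_F inf_y ((‖x+ty‖+‖x-ty‖)/2 - 1) equals max(t/2, t-1) and the one-sided one sup_F inf_y (‖x+ty‖ - 1) equals max(0, t-2), as matching lower and upper bounds, and E admits no equivalent asymptotically uniformly convex norm. -/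
theorem result (Ω : Type) [MeasurableSpace Ω] (P : MeasureTheory.Measure Ω) [MeasureTheory.IsProbabilityMeasure P]
    (E : Submodule ℝ (MeasureTheory.Lp ℝ 1 P)) (hcl : IsClosed (E : Set (MeasureTheory.Lp ℝ 1 P)))
    (hinf : ¬ FiniteDimensional ℝ E)
    (htb : Crest.AnalysisR.L1Subspace.UnitBallTotallyBoundedInMeasure P E)
    (hD : Crest.AnalysisR.L1Subspace.HasDaugavetProperty E) :
    (∀ t : ℝ, 0 < t →
      (Crest.AnalysisR.L1Subspace.toRealBanach P E hcl).MidpointModulusGE
          (Crest.AnalysisR.L1Subspace.toRealBanach P E hcl).norm t (max (t / 2) (t - 1)) ∧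
        (Crest.AnalysisR.L1Subspace.toRealBanach P E hcl).MidpointModulusLE
          (Crest.AnalysisR.L1Subspace.toRealBanach P E hcl).norm t (max (t / 2) (t - 1)) ∧
        (Crest.AnalysisR.L1Subspace.toRealBanach P E hcl).OneSidedModulusGE
          (Crest.AnalysisR.L1Subspace.toRealBanach P E hcl).norm t (max 0 (t - 2)) ∧
        (Crest.AnalysisR.L1Subspace.toRealBanach P E hcl).OneSidedModulusLE
          (Crest.AnalysisR.L1Subspace.toRealBanach P E hcl).norm t (max 0 (t - 2))) ∧
      ∀ N : E → ℝ, (Crest.AnalysisR.L1Subspace.toRealBanach P E hcl).IsEquivNorm N →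
        ¬ (Crest.AnalysisR.L1Subspace.toRealBanach P E hcl).IsAUC N := by
  have hcomp : CompleteSpace E := hcl.completeSpace_coe
  have hnt : Nontrivial E := by
    by_contra h
    rw [not_nontrivial_iff_subsingleton] at h
    exact hinf inferInstance
  refine ⟨fun t ht => ⟨H0125.midGE_of (X := E) ?_, H0125.midLE_of (X := E) ?_,
    H0125.oneGE_of (X := E) ?_, H0125.oneLE_of (X := E) ?_⟩,
    fun N hN => H0125.daug_not_auc (X := E) hD N hN⟩
  · intro x hx η hη
    obtain ⟨S, hS, h⟩ := H0125.mid_lower E htb x hx ht hη
    refine ⟨S, hS, fun y hy hy1 => ?_⟩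
    have h1 := h y hy hy1
    have h2 := norm_sub_le (x + t • y) (x - t • y)
    have h3 : x + t • y - (x - t • y) = (2 * t) • y := by module
    rw [h3, norm_smul, hy1, Real.norm_eq_abs, abs_of_pos (by positivity)] at h2
    rcases le_total (t / 2) (t - 1) with h4 | h4
    · rw [max_eq_right h4]; linarith
    · rw [max_eq_left h4]; linarith
  · intro x hx S hS η hη
    obtain ⟨y, hy, hy1, h1, h2⟩ := H0125.daug_upper hD x hx hS ht hη
    refine ⟨y, hy, hy1, ?_⟩
    rcases le_total 1 (t - 1) with h4 | h4
    · rw [max_eq_right h4] at h1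
      linarith [le_max_right (t / 2) (t - 1)]
    · rw [max_eq_left h4] at h1
      linarith [le_max_left (t / 2) (t - 1)]
  · intro x hx η hη
    obtain ⟨S, hS, h⟩ := H0125.norming_cof (V := E) x
    refine ⟨S, hS, fun y hy hy1 => ?_⟩
    have h1 := h (t • y) (S.smul_mem t hy)
    have h2 := norm_sub_le (x + t • y) x
    rw [add_sub_cancel_left, norm_smul, hy1, hx, Real.norm_eq_abs, abs_of_pos ht] at h2
    rw [hx] at h1
    rcases le_total 0 (t - 2) with h4 | h4
    · rw [max_eq_right h4]; linarith
    · rw [max_eq_left h4]; linarith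
  · intro x hx S hS η hη
    obtain ⟨y, hy, hy1, h1, -⟩ := H0125.daug_upper hD x hx hS ht hη
    refine ⟨y, hy, hy1, ?_⟩
    rcases le_total 1 (t - 1) with h4 | h4
    · rw [max_eq_right h4] at h1
      linarith [le_max_right 0 (t - 2)]
    · rw [max_eq_left h4] at h1
      linarith [le_max_left 0 (t - 2)]

end Crest.Agent.S0167
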