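import Crest.Statements.S0170
import Crest.Agent.H0170.Motion
import Crest.Agent.H0170.Flow

set_option autoImplicit false
open scoped ContDiff
open Crest.AnalysisR.BoxFlow
open Crest Crest.AnalysisR

namespace Crest.Agent.S0170

open Crest.Agent.H0170 Filter Topology

lemma sep_of_disjoint {a a' h h' : Fin 3 → ℚ} (hh : ∀ j, 0 < h j) (hh' : ∀ j, 0 < h' j)
    (hd : Disjoint (box a h) (box a' h')) :
    ∃ j, (h j : ℝ) + h' j < |(a j : ℝ) - a' j| := by
  by_contra hcon
  push Not at hcon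
  have h1 : ∀ j, (0 : ℝ) < h j := fun j => by exact_mod_cast hh j
  have h2 : ∀ j, (0 : ℝ) < h' j := fun j => by exact_mod_cast hh' j
  rw [Set.disjoint_left] at hd
  refine hd (a := fun j => ((h' j : ℝ) * a j + h j * a' j) / (h j + h' j)) (fun j => ?_)
    (fun j => ?_)
  · have hs : (0 : ℝ) < h j + h' j := add_pos (h1 j) (h2 j)
    have e : ((h' j : ℝ) * a j + h j * a' j) / (h j + h' j) - a j
        = -(h j / (h j + h' j) * (a j - a' j)) := by field_simp; ring
    rw [e, abs_neg, abs_mul, abs_of_pos (div_pos (h1 j) hs), div_mul_eq_mul_div, div_le_iff₀ hs]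
    exact mul_le_mul_of_nonneg_left (hcon j) (h1 j).le
  · have hs : (0 : ℝ) < h j + h' j := add_pos (h1 j) (h2 j)
    have e : ((h' j : ℝ) * a j + h j * a' j) / (h j + h' j) - a' j
        = h' j / (h j + h' j) * (a j - a' j) := by field_simp; ring
    rw [e, abs_mul, abs_of_pos (div_pos (h2 j) hs), div_mul_eq_mul_div, div_le_iff₀ hs]
    exact mul_le_mul_of_nonneg_left (hcon j) (h2 j).le

lemma eventually_margin {x y : ℝ} (hxy : x < y) :
    ∀ᶠ N : ℕ in atTop, (1 + 1 / ((N : ℝ) + 1)) * x + 1 / ((N : ℝ) + 1) ≤ y := by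
  have h0 : Tendsto (fun N : ℕ => 1 / ((N : ℝ) + 1)) atTop (𝓝 0) :=
    tendsto_one_div_add_atTop_nhds_zero_nat
  have h1 : Tendsto (fun N : ℕ => (1 + 1 / ((N : ℝ) + 1)) * x + 1 / ((N : ℝ) + 1)) atTop
      (𝓝 ((1 + 0) * x + 0)) := ((h0.const_add 1).mul_const x).add h0
  exact (h1.eventually (gt_mem_nhds (by simpa using hxy))).mono fun N hN => hN.le

lemma eventually_far {u v : Fin 3 → ℝ} (huv : ∀ s : ℝ, (1 - s) • u + s • v ≠ 0) (C : ℝ) :
    ∀ᶠ Λ : ℕ in atTop, ∀ s ∈ Set.Icc (0 : ℝ) 1, ∃ j, C ≤ (1 + Λ) * |(1 - s) * u j + s * v j| := by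
  have hcont : Continuous fun s : ℝ => ‖(1 - s) • u + s • v‖ := by fun_prop
  obtain ⟨s0, -, hs0⟩ := (isCompact_Icc (a := (0 : ℝ)) (b := 1)).exists_isMinOn
    ⟨0, by simp⟩ hcont.continuousOn
  set δ := ‖(1 - s0) • u + s0 • v‖ with hδ
  have hδpos : 0 < δ := norm_pos_iff.2 (huv s0)
  obtain ⟨M, hM⟩ := exists_nat_ge (C / δ)
  filter_upwards [eventually_ge_atTop M] with Λ hΛ s hs
  have h1 : δ ≤ ‖(1 - s) • u + s • v‖ := hs0 hs
  obtain ⟨j, hj⟩ : ∃ j, δ ≤ |(1 - s) * u j + s * v j| := by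
    by_contra hcon
    push Not at hcon
    have := (pi_norm_lt_iff (x := (1 - s) • u + s • v) hδpos).2 fun j => by simpa using hcon j
    linarith
  refine ⟨j, ?_⟩
  have h2 : (M : ℝ) ≤ Λ := by exact_mod_cast hΛ
  rw [div_le_iff₀ hδpos] at hM
  have h3 : (0 : ℝ) ≤ Λ := Nat.cast_nonneg _
  nlinarith

lemma line_ne_zero {u : Fin 3 → ℚ} (hu : u ≠ 0) {z N : ℚ} (hz : z ≠ 0) (hN : N ≠ u 1 / u 0)
    (s : ℝ) : (1 - s) • (fun j => (u j : ℝ)) + s • (fun j => ((z * ![1, N, 0] j : ℚ) : ℝ)) ≠ 0 := by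
  intro h
  have h0 := congrFun h 0
  have h1 := congrFun h 1
  have h2 := congrFun h 2
  simp at h0 h1 h2
  have hz' : (z : ℝ) ≠ 0 := by exact_mod_cast hz
  have hs1 : 1 - s ≠ 0 := by
    intro hs
    have : s = 1 := by linarith
    subst this
    simp at h0
    exact hz h0
  have e2 : u 2 = 0 := by
    rcases h2 with h2 | h2
    · exact absurd h2 hs1
    · exact h2
  have e1 : (u 1 : ℝ) = N * u 0 := by
    apply mul_left_cancel₀ hs1
    linear_combination h1 - N * h0
  have e1' : u 1 = N * u 0 := by exact_mod_cast e1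
  have e0 : u 0 ≠ 0 := by
    intro e0
    apply hu
    funext j
    fin_cases j
    · exact e0
    · simp [e1', e0]
    · exact e2
  apply hN
  rw [e1']; field_simp

/-- smooth step -/
noncomputable def st (m : ℕ) (t : ℝ) : ℝ := 1 - th (8 * t - m)

lemma st_good (m : ℕ) : Good (fun p => st m p.1) := by
  have h := Good.one.sub (((Good.nat 8).mul Good.time).sub (Good.nat m)).th
  simpa [st] using h

lemma st_zero {m : ℕ} {t : ℝ} (h : 8 * t ≤ m) : st m t = 0 := by
  rw [st, th_of_nonpos (by linarith)]; simp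

lemma st_one {m : ℕ} {t : ℝ} (h : m + 1 ≤ 8 * t) : st m t = 1 := by
  rw [st, th_of_one_le (by linarith)]; simp

lemma st_mem (m : ℕ) (t : ℝ) : st m t ∈ Set.Icc (0 : ℝ) 1 :=
  ⟨by linarith [th_le_one (8 * t - m), show st m t = 1 - th (8 * t - m) from rfl],
    by linarith [th_nonneg (8 * t - m), show st m t = 1 - th (8 * t - m) from rfl]⟩

lemma deriv_zero_of_const {f : ℝ → ℝ} {A B : ℝ} (hA : ∀ t, t ≤ 1 / 4 → f t = A)
    (hB : ∀ t, 3 / 4 ≤ t → f t = B) {t : ℝ} (ht : t ∉ Set.Icc (1 / 4 : ℝ) (3 / 4)) :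
    deriv f t = 0 := by
  rcases lt_or_ge t (1 / 4) with h | h
  · have : f =ᶠ[𝓝 t] fun _ => A := by
      filter_upwards [Iio_mem_nhds h] with s hs using hA s (le_of_lt hs)
    rw [this.deriv_eq]; simp
  · have h' : 3 / 4 < t := by
      by_contra h'
      exact ht ⟨h, not_lt.1 h'⟩
    have : f =ᶠ[𝓝 t] fun _ => B := by
      filter_upwards [Ioi_mem_nhds h'] with s hs using hB s (le_of_lt hs)
    rw [this.deriv_eq]; simp


/-- Finitely many pairwise disjoint rational boxes in 3-space are carried onto disjoint target boxes, each a translated determinant-one positive diagonal rescaling of its source, by the time-one flow of a smooth, compactly supported, effective, divergence-free velocity field active only in [1/4,3/4]. The flow equals the prescribed affine map on a neighbourhood of each source box. Effective: computably approximable mixed derivatives at rational points and computable global derivative bounds. -/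
theorem result
    (n : ℕ) (a b h k : Fin n → Fin 3 → ℚ)
    (hh : ∀ i j, 0 < h i j) (hk : ∀ i j, 0 < k i j)
    (ha : Pairwise fun i i' => Disjoint (box (a i) (h i)) (box (a i') (h i')))
    (hb : Pairwise fun i i' => Disjoint (box (b i) (k i)) (box (b i') (k i')))
    (hvol : ∀ i, ∏ j : Fin 3, k i j / h i j = 1) :
    ∃ (U : Field) (Φ : ℝ → (Fin 3 → ℝ) → (Fin 3 → ℝ)),
      ContDiff ℝ ∞ U ∧ HasCompactSupport U ∧ Effective U ∧
      (∀ p : ℝ × (Fin 3 → ℝ), p.1 ∉ Set.Icc (1 / 4 : ℝ) (3 / 4) → U p = 0) ∧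
      (∀ p : ℝ × (Fin 3 → ℝ), spaceDiv U p = 0) ∧ IsFlow U Φ ∧
      ∀ i : Fin n, ∃ O : Set (Fin 3 → ℝ), IsOpen O ∧ box (a i) (h i) ⊆ O ∧
        ∀ x ∈ O, Φ 1 x = fun j => (b i j : ℝ) + ((k i j / h i j : ℚ) : ℝ) * (x j - (a i j : ℝ)) := by
  classical
  have hh' : ∀ i j, (0 : ℝ) < h i j := fun i j => by exact_mod_cast hh i j
  have hk' : ∀ i j, (0 : ℝ) < k i j := fun i j => by exact_mod_cast hk i j
  have hr : ∀ i j, 0 < k i j / h i j := fun i j => div_pos (hk i j) (hh i j)
  have sa : ∀ i i', i ≠ i' → ∃ j, (h i j : ℝ) + h i' j < |(a i j : ℝ) - a i' j| :=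
    fun i i' hi => sep_of_disjoint (hh i) (hh i') (ha hi)
  have sb : ∀ i i', i ≠ i' → ∃ j, (k i j : ℝ) + k i' j < |(b i j : ℝ) - b i' j| :=
    fun i i' hi => sep_of_disjoint (hk i) (hk i') (hb hi)
  -- the margin
  obtain ⟨M, hM⟩ : ∃ M : ℕ, ∀ ii : Fin n × Fin n, ii.1 ≠ ii.2 →
      (∃ j, (1 + 1 / ((M : ℝ) + 1)) * ((h ii.1 j : ℝ) + h ii.2 j) + 1 / ((M : ℝ) + 1)
        ≤ |(a ii.1 j : ℝ) - a ii.2 j|) ∧
      (∃ j, (1 + 1 / ((M : ℝ) + 1)) * ((k ii.1 j : ℝ) + k ii.2 j) + 1 / ((M : ℝ) + 1)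
        ≤ |(b ii.1 j : ℝ) - b ii.2 j|) := by
    refine (Filter.eventually_all.2 fun ii => ?_).exists (f := atTop)
    by_cases hi : ii.1 = ii.2
    · exact Eventually.of_forall fun _ h => absurd hi h
    · obtain ⟨j, hj⟩ := sa _ _ hi
      obtain ⟨j', hj'⟩ := sb _ _ hi
      filter_upwards [eventually_margin hj, eventually_margin hj'] with M h1 h2 _
      exact ⟨⟨j, h1⟩, ⟨j', h2⟩⟩
  set η : ℚ := 1 / ((M : ℚ) + 1) with hηdef
  have hη : 0 < η := by positivity
  have hηR : (η : ℝ) = 1 / ((M : ℝ) + 1) := by rw [hηdef]; push_cast; rfl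
  rw [← hηR] at hM
  have hη0 : (0 : ℝ) < η := by exact_mod_cast hη
  have hη1 : (η : ℝ) ≤ 1 := by
    rw [hηR, div_le_one (by positivity)]; linarith [(Nat.cast_nonneg M : (0 : ℝ) ≤ M)]
  -- the generic direction
  obtain ⟨N, hN⟩ := Infinite.exists_notMem_finset
    ((Finset.univ.image fun ii : Fin n × Fin n => (a ii.1 1 - a ii.2 1) / (a ii.1 0 - a ii.2 0)) ∪
      (Finset.univ.image fun ii : Fin n × Fin n => (b ii.1 1 - b ii.2 1) / (b ii.1 0 - b ii.2 0)))
  simp only [Finset.mem_union, Finset.mem_image, Finset.mem_univ, true_and, not_or,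
    not_exists] at hN
  set m : Fin n → Fin 3 → ℚ := fun i j => ((i : ℕ) : ℚ) * ![1, N, 0] j with hm
  obtain ⟨H, hH⟩ := (Set.finite_range fun ij : Fin n × Fin 3 =>
    (h ij.1 ij.2 : ℝ) + k ij.1 ij.2).bddAbove
  have hH' : ∀ i j, (h i j : ℝ) + k i j ≤ H := fun i j => hH ⟨(i, j), rfl⟩
  obtain ⟨Λ, hΛ⟩ : ∃ Λ : ℕ, ∀ ii : Fin n × Fin n, ii.1 ≠ ii.2 →
      (∀ s ∈ Set.Icc (0 : ℝ) 1, ∃ j, 4 * H + 1 ≤ (1 + Λ) *
        |(1 - s) * ((a ii.1 j - a ii.2 j : ℚ) : ℝ) + s * ((m ii.1 j - m ii.2 j : ℚ) : ℝ)|) ∧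
      (∀ s ∈ Set.Icc (0 : ℝ) 1, ∃ j, 4 * H + 1 ≤ (1 + Λ) *
        |(1 - s) * ((b ii.1 j - b ii.2 j : ℚ) : ℝ) + s * ((m ii.1 j - m ii.2 j : ℚ) : ℝ)|) := by
    refine (Filter.eventually_all.2 fun ii => ?_).exists (f := atTop)
    by_cases hi : ii.1 = ii.2
    · exact Eventually.of_forall fun _ h => absurd hi h
    · have hz : (((ii.1 : ℕ) : ℚ) - ((ii.2 : ℕ) : ℚ)) ≠ 0 := by
        rw [sub_ne_zero]
        intro h
        exact hi (Fin.ext (by exact_mod_cast h))
      have hmm : ∀ j, m ii.1 j - m ii.2 j = (((ii.1 : ℕ) : ℚ) - ((ii.2 : ℕ) : ℚ)) * ![1, N, 0] j :=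
        fun j => by simp only [hm]; ring
      have hua : (fun j => a ii.1 j - a ii.2 j) ≠ 0 := by
        intro h0
        obtain ⟨j, hj⟩ := sa _ _ hi
        have : a ii.1 j - a ii.2 j = 0 := congrFun h0 j
        have h2 : (a ii.1 j : ℝ) - a ii.2 j = 0 := by exact_mod_cast this
        rw [h2, abs_zero] at hj
        linarith [hh' ii.1 j, hh' ii.2 j]
      have hub : (fun j => b ii.1 j - b ii.2 j) ≠ 0 := by
        intro h0
        obtain ⟨j, hj⟩ := sb _ _ hi
        have : b ii.1 j - b ii.2 j = 0 := congrFun h0 j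
        have h2 : (b ii.1 j : ℝ) - b ii.2 j = 0 := by exact_mod_cast this
        rw [h2, abs_zero] at hj
        linarith [hk' ii.1 j, hk' ii.2 j]
      have ea := eventually_far (line_ne_zero hua hz (Ne.symm (hN.1 ii))) (4 * H + 1)
      have eb := eventually_far (line_ne_zero hub hz (Ne.symm (hN.2 ii))) (4 * H + 1)
      simp only [hmm]
      filter_upwards [ea, eb] with Λ h1 h2 _
      exact ⟨h1, h2⟩
  have hΛ0 : (0 : ℝ) ≤ Λ := Nat.cast_nonneg _
  -- the motion
  set c : Fin n → Fin 3 → ℝ → ℝ := fun i j t => (1 + Λ * (st 2 t - st 5 t)) *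
    ((1 - st 3 t) * a i j + (st 3 t - st 4 t) * m i j + st 4 t * b i j) with hc
  set w : Fin n → Fin 3 → ℝ → ℝ := fun i j t =>
    (1 + η) * ((1 - st 3 t) * h i j + st 3 t * k i j) with hw
  set l : Fin n → Fin 3 → ℝ := fun i j => Real.log ((k i j / h i j : ℚ) : ℝ) with hl
  set L : Fin n → Fin 3 → ℝ → ℝ := fun i j t => deriv (st 3) t * l i j with hL
  have hcg : ∀ i j, Good (fun p => c i j p.1) := fun i j =>
    (Good.one.add ((Good.nat Λ).mul ((st_good 2).sub (st_good 5)))).mul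
      ((((Good.one.sub (st_good 3)).mul (Good.rat _)).add
        (((st_good 3).sub (st_good 4)).mul (Good.rat _))).add ((st_good 4).mul (Good.rat _)))
  have hwg : ∀ i j, Good (fun p => w i j p.1) := fun i j =>
    (Good.one.add (Good.rat η)).mul (((Good.one.sub (st_good 3)).mul (Good.rat _)).add
      ((st_good 3).mul (Good.rat _)))
  have hLg : ∀ i j, Good (fun p => L i j p.1) := fun i j =>
    (st_good 3).tderiv.mul (Good.log _ (hr i j))
  have htr : ∀ i t, L i 0 t + L i 1 t + L i 2 t = 0 := by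
    intro i t
    have h1 := hvol i
    rw [Fin.prod_univ_three] at h1
    have h2 : ((k i 0 / h i 0 : ℚ) : ℝ) * ((k i 1 / h i 1 : ℚ) : ℝ) * ((k i 2 / h i 2 : ℚ) : ℝ)
        = 1 := by exact_mod_cast h1
    have p0 : (0 : ℝ) < ((k i 0 / h i 0 : ℚ) : ℝ) := by exact_mod_cast hr i 0
    have p1 : (0 : ℝ) < ((k i 1 / h i 1 : ℚ) : ℝ) := by exact_mod_cast hr i 1
    have p2 : (0 : ℝ) < ((k i 2 / h i 2 : ℚ) : ℝ) := by exact_mod_cast hr i 2
    have h3 : l i 0 + l i 1 + l i 2 = 0 := by
      simp only [hl]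
      rw [← Real.log_mul p0.ne' p1.ne', ← Real.log_mul (mul_pos p0 p1).ne' p2.ne', h2,
        Real.log_one]
    simp only [hL]
    rw [← mul_add, ← mul_add, h3, mul_zero]
  have hcA : ∀ i j t, t ≤ 1 / 4 → c i j t = a i j := by
    intro i j t ht
    simp only [hc]
    rw [st_zero (m := 2) (by push_cast; linarith), st_zero (m := 3) (by push_cast; linarith),
      st_zero (m := 4) (by push_cast; linarith), st_zero (m := 5) (by push_cast; linarith)]
    ring
  have hcB : ∀ i j t, 3 / 4 ≤ t → c i j t = b i j := by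
    intro i j t ht
    simp only [hc]
    rw [st_one (m := 2) (by push_cast; linarith), st_one (m := 3) (by push_cast; linarith),
      st_one (m := 4) (by push_cast; linarith), st_one (m := 5) (by push_cast; linarith)]
    ring
  have hwH : ∀ i j t, w i j t ≤ 2 * H := by
    intro i j t
    obtain ⟨s0, s1⟩ := st_mem 3 t
    have h1 := hH' i j
    have h2 := hh' i j
    have h3 := hk' i j
    have h4 : (1 - st 3 t) * h i j + st 3 t * k i j ≤ H := by nlinarith
    have h5 : 0 ≤ (1 - st 3 t) * h i j + st 3 t * k i j := by nlinarith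
    simp only [hw]
    nlinarith
  have hsep : ∀ t i i', i ≠ i' → ∃ j, w i j t + w i' j t + η ≤ |c i j t - c i' j t| := by
    intro t i i' hi
    rcases le_or_gt t (3 / 8) with h1 | h1
    · obtain ⟨j, hj⟩ := (hM (i, i') hi).1
      refine ⟨j, ?_⟩
      simp only [hc, hw]
      rw [st_zero (m := 3) (by push_cast; linarith),
        st_zero (m := 4) (by push_cast; linarith), st_zero (m := 5) (by push_cast; linarith)]
      have hs := (st_mem 2 t).1
      have e : (1 + Λ * (st 2 t - 0)) * ((1 - 0) * a i j + (0 - 0) * m i j + 0 * b i j)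
          - (1 + Λ * (st 2 t - 0)) * ((1 - 0) * a i' j + (0 - 0) * m i' j + 0 * b i' j)
          = (1 + Λ * st 2 t) * ((a i j : ℝ) - a i' j) := by ring
      rw [e, abs_mul, abs_of_nonneg (by positivity : (0 : ℝ) ≤ 1 + Λ * st 2 t)]
      simp only at hj
      nlinarith [abs_nonneg ((a i j : ℝ) - a i' j), mul_nonneg hΛ0 hs]
    rcases le_or_gt t (1 / 2) with h2 | h2
    · obtain ⟨j, hj⟩ := (hΛ (i, i') hi).1 (st 3 t) (st_mem 3 t)
      refine ⟨j, ?_⟩
      have e : c i j t - c i' j t = (1 + Λ) * ((1 - st 3 t) * ((a i j - a i' j : ℚ) : ℝ)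
          + st 3 t * ((m i j - m i' j : ℚ) : ℝ)) := by
        simp only [hc]
        rw [st_one (m := 2) (by push_cast; linarith),
          st_zero (m := 4) (by push_cast; linarith), st_zero (m := 5) (by push_cast; linarith)]
        push_cast; ring
      rw [e, abs_mul, abs_of_nonneg (by positivity : (0 : ℝ) ≤ 1 + Λ)]
      simp only at hj
      linarith [hwH i j t, hwH i' j t]
    rcases le_or_gt t (5 / 8) with h3 | h3
    · obtain ⟨j, hj⟩ := (hΛ (i, i') hi).2 (1 - st 4 t)
        ⟨by linarith [(st_mem 4 t).2], by linarith [(st_mem 4 t).1]⟩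
      refine ⟨j, ?_⟩
      have e : c i j t - c i' j t = (1 + Λ) * ((1 - (1 - st 4 t)) * ((b i j - b i' j : ℚ) : ℝ)
          + (1 - st 4 t) * ((m i j - m i' j : ℚ) : ℝ)) := by
        simp only [hc]
        rw [st_one (m := 2) (by push_cast; linarith),
          st_one (m := 3) (by push_cast; linarith), st_zero (m := 5) (by push_cast; linarith)]
        push_cast; ring
      rw [e, abs_mul, abs_of_nonneg (by positivity : (0 : ℝ) ≤ 1 + Λ)]
      simp only at hj
      linarith [hwH i j t, hwH i' j t]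
    · obtain ⟨j, hj⟩ := (hM (i, i') hi).2
      refine ⟨j, ?_⟩
      simp only [hc, hw]
      rw [st_one (m := 2) (by push_cast; linarith),
        st_one (m := 3) (by push_cast; linarith), st_one (m := 4) (by push_cast; linarith)]
      have hs : 0 ≤ 1 - st 5 t := by linarith [(st_mem 5 t).2]
      have e : (1 + Λ * (1 - st 5 t)) * ((1 - 1) * a i j + (1 - 1) * m i j + 1 * b i j)
          - (1 + Λ * (1 - st 5 t)) * ((1 - 1) * a i' j + (1 - 1) * m i' j + 1 * b i' j)
          = (1 + Λ * (1 - st 5 t)) * ((b i j : ℝ) - b i' j) := by ring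
      rw [e, abs_mul, abs_of_nonneg (by positivity : (0 : ℝ) ≤ 1 + Λ * (1 - st 5 t))]
      simp only at hj
      nlinarith [abs_nonneg ((b i j : ℝ) - b i' j), mul_nonneg hΛ0 hs]
  obtain ⟨U, hU1, hU2, hU3, hU4, hU5, hU6⟩ := exists_motion n c w L η hη hcg hwg hLg htr hsep
    (fun t ht i j => deriv_zero_of_const (hcA i j) (hcB i j) ht)
    (fun t ht i j => by
      simp only [hL]
      rw [deriv_zero_of_const (A := 0) (B := 1)
        (fun t ht => st_zero (by push_cast; linarith))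
        (fun t ht => st_one (by push_cast; linarith)) ht, zero_mul])
  obtain ⟨Φ, hΦ, hΦu⟩ := exists_flow hU1 hU2 hU4
  refine ⟨U, Φ, hU1, hU2, hU3, hU4, hU5, hΦ, fun i => ?_⟩
  refine ⟨{x | ∀ j, |x j - a i j| < (1 + η) * h i j}, ?_, ?_, ?_⟩
  · have : {x : Fin 3 → ℝ | ∀ j, |x j - a i j| < (1 + η) * h i j}
        = ⋂ j, {x : Fin 3 → ℝ | |x j - a i j| < (1 + η) * h i j} := by
      ext x; simp
    rw [this]
    exact isOpen_iInter_of_finite fun j => isOpen_lt (by fun_prop) continuous_const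
  · intro x hx j
    have := hx j
    nlinarith [hh' i j]
  · intro x hx
    set γ : ℝ → Fin 3 → ℝ := fun t j => c i j t + Real.exp (st 3 t * l i j) * (x j - a i j)
      with hγ
    have hγ0 : γ 0 = x := by
      funext j
      simp only [hγ]
      rw [hcA i j 0 (by norm_num), st_zero (by norm_num)]
      simp
    have hγd : ∀ t, HasDerivAt γ (U (t, γ t)) t := by
      intro t
      rw [hU6 i t (γ t) ?_]
      · rw [hasDerivAt_pi]
        intro j
        have d1 := (diff_of_good (hcg i j) t).hasDerivAt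
        have d2 := (diff_of_good (st_good 3) t).hasDerivAt
        have d3 := d1.add (((d2.mul_const (l i j)).exp).mul_const (x j - a i j))
        have e : deriv (c i j) t + L i j t * (γ t j - c i j t) = deriv (c i j) t +
            Real.exp (st 3 t * l i j) * (deriv (st 3) t * l i j) * (x j - a i j) := by
          simp only [hγ, hL]; ring
        rw [e]
        exact d3
      · intro j
        simp only [hγ, hw, add_sub_cancel_left]
        rw [abs_mul, abs_of_pos (Real.exp_pos _)]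
        obtain ⟨s0, s1⟩ := st_mem 3 t
        have hrj : (0 : ℝ) < ((k i j / h i j : ℚ) : ℝ) := by exact_mod_cast hr i j
        have hconv := convexOn_exp.2 (Set.mem_univ 0) (Set.mem_univ (l i j))
          (by linarith : 0 ≤ 1 - st 3 t) s0 (by ring)
        simp only [smul_eq_mul, mul_zero, zero_add, Real.exp_zero, mul_one, hl] at hconv
        rw [Real.exp_log hrj] at hconv
        have hx' := hx j
        have hj := hh' i j
        have e : (1 - st 3 t) * h i j + st 3 t * k i j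
            = (1 - st 3 t + st 3 t * ((k i j / h i j : ℚ) : ℝ)) * h i j := by
          push_cast; field_simp
        rw [e]
        have hE := Real.exp_pos (st 3 t * l i j)
        calc Real.exp (st 3 t * l i j) * |x j - a i j|
            < Real.exp (st 3 t * l i j) * ((1 + η) * h i j) := mul_lt_mul_of_pos_left hx' hE
          _ ≤ (1 - st 3 t + st 3 t * ((k i j / h i j : ℚ) : ℝ)) * ((1 + η) * h i j) :=
            mul_le_mul_of_nonneg_right hconv (by positivity)
          _ = _ := by ring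
    have := hΦu γ hγd 1
    rw [hγ0] at this
    rw [this]
    funext j
    simp only [hγ]
    have hrj : (0 : ℝ) < ((k i j / h i j : ℚ) : ℝ) := by exact_mod_cast hr i j
    rw [hcB i j 1 (by norm_num), st_one (by norm_num), one_mul]
    simp only [hl]
    rw [Real.exp_log hrj]

end Crest.Agent.S0170
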