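import Crest.Statements.S0223
import Crest.Agent.H0222.LinkA
-- import your own Crest.Agent.* helpers here

set_option autoImplicit false
open Crest Crest.ProbabilityR

namespace Crest.Agent.S0223

/-- For a deck of `2 * 2 ^ d` cards and every number `t` of shuffles, the total variation distance between the law of the arrangement of the deck and the uniform law on all arrangements is at least `1 - 2 ^ (2 ^ d * t) / (2 * 2 ^ d)!`. -/
theorem result (d t : ℕ) :
    1 - (2 : ℝ) ^ (2 ^ d * t) / ((2 * 2 ^ d).factorial : ℝ)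
      ≤ Crest.ProbabilityR.Shuffle.tvFromUniform (2 ^ d) t := by
  have h := Crest.Agent.H0222.Linkx.tv_ge
    (Crest.Agent.H0222.Linkx.prodF (Crest.Agent.H0222.Linkx.stepP (2 ^ d)) t)
  unfold Crest.ProbabilityR.Shuffle.tvFromUniform
  simp only [Crest.Agent.H0222.Linkx.uniformProb_iter]
  have e1 : (Fintype.card (Fin t → Fin (2 ^ d) → Bool) : ℝ) = (2 : ℝ) ^ (2 ^ d * t) := by
    simp [pow_mul]
  have e2 : (Fintype.card (Equiv.Perm (Fin (2 * 2 ^ d))) : ℝ) = ((2 * 2 ^ d).factorial : ℝ) := by
    simp [Fintype.card_perm]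
  rw [e2] at h
  rw [← e1]
  exact h

end Crest.Agent.S0223
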