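import Crest.Statements.S0241
import Crest.Agent.H0241.Fin

set_option autoImplicit false
universe u
open Crest Crest.ProbabilityR

namespace Crest.Agent.S0241

/-- Let `d ≥ 3`, `β ≥ 0`, `tanh β ≤ (d-1)^(-1/2)`. On every connected acyclic graph with all degrees `d` (the infinite `d`-regular tree) some measurable map from `[0,1]^V` to spin configurations commutes with every automorphism on every input and, fed independent uniform labels, outputs the free zero-field Ising state: each spin pattern on a finite connected vertex set `S` has probability `1/2` times the product over edges inside `S` of `(1 ± tanh β)/2`, with `+` for agreeing endpoints. -/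
theorem result (d : ℕ) (hd : 3 ≤ d) (β : ℝ)
    (hβ : 0 ≤ β) (hθ : Real.tanh β ≤ ((d : ℝ) - 1) ^ (-(1 / 2 : ℝ))) (V : Type u)
    (G : SimpleGraph V) [G.LocallyFinite] (hT : G.IsTree) (hreg : G.IsRegularOfDegree d) :
    ∃ Φ : (V → unitInterval) → (V → Bool),
      Measurable Φ ∧
      (∀ (g : G ≃g G) (x : V → unitInterval), Φ (x ∘ ⇑g) = Φ x ∘ ⇑g) ∧
      ∀ (S : Finset V) (η : V → Bool), (G.induce (S : Set V)).Connected →
        (Crest.ProbabilityR.Labels.labelMeasure V).map Φ {σ | ∀ v ∈ S, σ v = η v} =
          ENNReal.ofReal (Crest.ProbabilityR.TreeIsing.isingWeight G (Real.tanh β) S η) := by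
  open Crest.Agent.H0241 MeasureTheory in
  have h1 : (0 : ℝ) < (d : ℝ) - 1 := by
    have : (3 : ℝ) ≤ d := by exact_mod_cast hd
    linarith
  have h0 : 0 ≤ Real.tanh β := by
    rw [Real.tanh_eq_sinh_div_cosh]
    exact div_nonneg (Real.sinh_nonneg_iff.2 hβ) (Real.cosh_pos β).le
  obtain ⟨M, hM, hg, h2, hl⟩ := factor (G := G) ⟨hT, hreg, hd⟩ h0 (by
    have := pow_le_pow_left₀ h0 hθ 2
    rw [← Real.rpow_natCast (_ ^ _), ← Real.rpow_mul h1.le] at this
    norm_num [Real.rpow_neg_one] at this
    rwa [← le_div_iff₀' h1, one_div])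
  obtain ⟨Ω, hΩ, T, hT'⟩ := labels V
  have m0 : Measurable fun (ω : Om V) v => decide (0 < M ω v) :=
    measurable_pi_lambda _ fun v => measurable_to_bool (by
      simpa [Set.preimage] using measurableSet_lt measurable_const (hM v))
  refine ⟨(fun ω v => decide (0 < M ω v)) ∘ Ω, m0.comp hΩ.1, fun g x => funext fun v => ?_,
    fun S η hS => ?_⟩
  · have : Ω (x ∘ g) = tr g (Ω x) := funext fun p => by simp [tr, hT']
    simp only [Function.comp_apply, hg, this]
  have mE : MeasurableSet {σ : V → Bool | ∀ v ∈ S, σ v = η v} := by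
    convert S.measurableSet_biInter fun v _ => measurable_pi_apply v (measurableSet_singleton (η v))
    ext; simp
  rw [← Measure.map_map m0 hΩ.1]
  erw [hΩ.2]
  rw [Measure.map_apply m0 mE, ← hl S η hS, ← ofReal_measureReal, ← integral_indicator_one (m0 mE)]
  congr 1
  refine integral_congr_ae ?_
  filter_upwards [(Filter.eventually_all_finset S).2 fun v _ => h2 v] with ω hω
  by_cases c : ∀ v ∈ S, decide (0 < M ω v) = η v
  · rw [Set.indicator_of_mem (by exact c), Finset.prod_eq_one fun v hv => ?_]
    · rfl
    rcases sq_eq_one_iff.1 (hω v hv) with e | e <;> rw [← c v hv, e] <;> norm_num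
  · rw [Set.indicator_of_notMem (by exact c)]
    push Not at c
    obtain ⟨v, hv, c⟩ := c
    refine (Finset.prod_eq_zero hv ?_).symm
    rcases sq_eq_one_iff.1 (hω v hv) with e | e <;> rw [e] at c ⊢ <;>
      cases h : η v <;> simp_all

end Crest.Agent.S0241
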