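import Crest.Statements.S0254
import Crest.Agent.H0254.Main
import Crest.Agent.H0254.Equiv
import Crest.Agent.H0254.Labels

set_option autoImplicit false
open Crest Crest.ProbabilityR

namespace Crest.Agent.S0254

/-- One rule from (graph on `ℕ`, labels in `[0,1]^ℕ`) to edge sets, jointly measurable in (adjacency table, labels) and commuting on every input with every permutation of `ℕ` acting on graph, labels and pairs, gives i.i.d. uniform labels the free uniform spanning forest's law on every connected locally finite graph: along every exhaustion by finite connected induced pieces, for finite edge sets `F` the chance that the piece's uniform spanning tree contains `F` tends to that for the output. -/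
theorem result :
    ∃ Φ : SimpleGraph ℕ → (ℕ → unitInterval) → (Sym2 ℕ → Bool),
      Measurable (fun p : (ℕ → ℕ → Bool) × (ℕ → unitInterval) =>
          Φ (Crest.ProbabilityR.GraphTables.graphOfTable p.1) p.2) ∧
      (∀ (σ : Equiv.Perm ℕ) (G : SimpleGraph ℕ) (x : ℕ → unitInterval),
          Φ (G.comap ⇑σ) (x ∘ ⇑σ) = Φ G x ∘ Sym2.map ⇑σ) ∧
      ∀ G : SimpleGraph ℕ, G.Connected → (∀ v : ℕ, (G.neighborSet v).Finite) →
        ∀ S : ℕ → Finset ℕ, Monotone S → (∀ v : ℕ, ∃ n, v ∈ S n) →
          (∀ n, (G.induce (S n : Set ℕ)).Connected) →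
          ∀ F : Finset (Sym2 ℕ), (↑F : Set (Sym2 ℕ)) ⊆ G.edgeSet →
            Filter.Tendsto (fun n => Crest.ProbabilityR.SpanningTrees.ustContains G (S n) F) Filter.atTop
              (nhds (((Crest.ProbabilityR.Labels.labelMeasure ℕ).map (Φ G) {ω | ∀ e ∈ F, ω e = true}).toReal)) := by
  obtain ⟨ζ, hζ, hζl⟩ := MeasureTheory.Measure.exists_measurable_map_eq (H0254.lapI ℕ)
  refine ⟨fun G x => H0254.rule (H0254.pG G) (H0254.lam G) (H0254.lab G fun v => ζ (x v)),
    ?_, ?_, ?_⟩
  · have hG : ∀ u v : ℕ, Measurable fun p : (ℕ → ℕ → Bool) × (ℕ → unitInterval) =>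
        (GraphTables.graphOfTable p.1).Adj u v := by
      intro u v
      simp only [GraphTables.graphOfTable, SimpleGraph.fromRel_adj]
      have : ∀ a b : ℕ, Measurable fun p : (ℕ → ℕ → Bool) × (ℕ → unitInterval) =>
          p.1 a b = true := fun a b =>
        measurableSet_setOfPred.1 (measurableSet_eq_fun (by fun_prop) measurable_const)
      exact measurable_const.and ((this u v).or (this v u))
    refine measurable_pi_lambda _ fun e => H0254.measurable_rule (H0254.measurable_pG hG)
      (H0254.measurable_lam hG) (fun f => H0254.measurable_lab hG (fun v n => ?_) f) e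
    fun_prop
  · intro σ G x
    funext e
    have := H0254.rule_map σ.toEmbedding.sym2Map (H0254.pG G) (H0254.pG (G.comap σ))
      (H0254.lam G) (H0254.lam (G.comap σ)) (H0254.pG_comap σ G) (H0254.lam_comap σ G)
      (H0254.lab G fun v => ζ (x v)) e
    refine Eq.trans ?_ this.symm
    exact congrArg (fun z => H0254.rule (H0254.pG (G.comap σ)) (H0254.lam (G.comap σ)) z e)
      (funext fun f => H0254.lab_comap σ G (fun v => ζ (x v)) f)
  · intro G hc hG S hmono hex hS F hF
    obtain ⟨ν, hν, hL, hp⟩ := H0254.exists_fusf G S hmono hex hS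
    let Λ : G.edgeSet → ℕ → Finset G.edgeSet := fun i n =>
      (H0254.lam G i n).preimage Subtype.val Subtype.val_injective.injOn
    have hΛ : ∀ (i : G.edgeSet) n, H0254.lam G (Function.Embedding.subtype _ i) n =
        (Λ i n).map (Function.Embedding.subtype _) := by
      intro i n
      ext f
      simp only [Λ, Finset.mem_map, Finset.mem_preimage, Function.Embedding.coe_subtype]
      exact ⟨fun h => ⟨⟨f, (H0254.mem_lam.1 h).2.1⟩, h, rfl⟩, fun ⟨a, h, ha⟩ => ha ▸ h⟩
    have hmain := H0254.main_law (ν := ν) (Λ := Λ)
      (fun i m n hmn f hf => Finset.mem_preimage.2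
        (H0254.lam_mono hG i hmn (Finset.mem_preimage.1 hf)))
      (fun i j => (H0254.lam_exhaust hc hG i j.2).imp fun n hn => Finset.mem_preimage.2 hn)
      (by norm_num) hL
    have hrm : Measurable (H0254.rule (H0254.pOf ν) Λ) := measurable_pi_lambda _ fun i =>
      H0254.measurable_rule (Θ := G.edgeSet → ℝ) (p := fun _ => H0254.pOf ν)
        (fun _ => measurable_const) (Λ := fun _ => Λ) (fun _ _ _ => MeasurableSet.const _)
        (z := fun z => z) (fun j => measurable_pi_apply j) i
    have hz : Measurable fun (x : ℕ → unitInterval) (v : ℕ) => ζ (x v) := by fun_prop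
    have hlab : Measurable fun (y : ℕ → ℕ → ℝ) (e : G.edgeSet) => H0254.lab G y e :=
      measurable_pi_lambda _ fun e => H0254.measurable_lab (G := fun _ => G)
        (fun _ _ => measurable_const) (y := fun y => y) (fun v n => by fun_prop) e
    have hΦ : Measurable fun x : ℕ → unitInterval =>
        H0254.rule (H0254.pG G) (H0254.lam G) (H0254.lab G fun v => ζ (x v)) :=
      measurable_pi_lambda _ fun e => H0254.measurable_rule (p := fun _ => H0254.pG G)
        (fun _ => measurable_const) (Λ := fun _ => H0254.lam G)
        (fun _ _ _ => MeasurableSet.const _)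
        (fun f => H0254.measurable_lab (G := fun _ => G) (fun _ _ => measurable_const)
          (fun v n => by fun_prop) f) e
    set FI : Finset G.edgeSet := F.preimage Subtype.val Subtype.val_injective.injOn with hFI
    have hFmap : FI.map (Function.Embedding.subtype _) = F := by
      ext f
      simp only [hFI, Finset.mem_map, Finset.mem_preimage, Function.Embedding.coe_subtype]
      exact ⟨fun ⟨a, h, ha⟩ => ha ▸ h, fun h => ⟨⟨f, hF h⟩, h, rfl⟩⟩
    have hlaw : (Labels.labelMeasure ℕ).map (H0254.rule (H0254.pOf ν) Λ ∘
        (fun (y : ℕ → ℕ → ℝ) (e : G.edgeSet) => H0254.lab G y e) ∘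
        fun (x : ℕ → unitInterval) (v : ℕ) => ζ (x v)) = ν := by
      rw [← MeasureTheory.Measure.map_map hrm (hlab.comp hz),
        ← MeasureTheory.Measure.map_map hlab hz, Labels.labelMeasure,
        MeasureTheory.Measure.infinitePi_map_pi _ fun _ => hζ]
      simp only [hζl]
      rw [H0254.law_lab hG, hmain]
    have hval : ((Labels.labelMeasure ℕ).map (fun x : ℕ → unitInterval =>
        H0254.rule (H0254.pG G) (H0254.lam G) (H0254.lab G fun v => ζ (x v)))
        {ω | ∀ e ∈ F, ω e = true}).toReal = H0254.pG G F := by
      rw [← hFmap, ← hp, H0254.pOf, MeasureTheory.measureReal_def,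
        MeasureTheory.Measure.map_apply hΦ (H0254.measurableSet_all _)]
      conv_rhs => rw [← hlaw]
      rw [MeasureTheory.Measure.map_apply (hrm.comp (hlab.comp hz)) (H0254.measurableSet_all _)]
      congr 2
      ext x
      simp only [Set.mem_preimage, Set.mem_ofPred_eq, Finset.forall_mem_map, Function.comp_apply]
      refine forall₂_congr fun e _ => ?_
      rw [H0254.rule_map (Function.Embedding.subtype _) (H0254.pG G) (H0254.pOf ν) (H0254.lam G)
        Λ hp hΛ]
      rfl
    rw [hval]
    simp only [H0254.ustContains_eq]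
    exact H0254.tendsto_ratio G S hmono hex hS F hF

end Crest.Agent.S0254
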