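import Crest.Statements.S0255
import Crest.Agent.H0254.Main
import Crest.Agent.H0254.Stable

set_option autoImplicit false
open Crest Crest.ProbabilityR

namespace Crest.Agent.S0255

lemma Zc_eq_genPoly {ι : Type*} (ν : MeasureTheory.Measure (ι → Bool))
    [MeasureTheory.IsProbabilityMeasure ν] (F : Finset ι) (z : ι → ℂ) :
    H0254.Zc (H0254.pOf ν) F z = StronglyRayleigh.genPoly ν F z := by
  classical
  have hm : ∀ S : Finset ι, MeasurableSet {ω : ι → Bool | ∀ i ∈ F, (ω i = true ↔ i ∈ S)} := by
    intro S
    have : {ω : ι → Bool | ∀ i ∈ F, (ω i = true ↔ i ∈ S)} =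
        (F : Set ι).pi fun i => {b | b = true ↔ i ∈ S} := by ext; simp
    rw [this]
    exact MeasurableSet.pi F.countable_toSet fun _ _ => MeasurableSet.of_discrete
  have hreal : ∀ A : Set (ι → Bool), MeasurableSet A → ((ν A).toReal : ℂ) =
      ∫ ω, A.indicator (1 : (ι → Bool) → ℂ) ω ∂ν := by
    intro A hA
    rw [MeasureTheory.integral_indicator hA]
    simp [MeasureTheory.measureReal_def]
  have hint : ∀ A : Set (ι → Bool), MeasurableSet A →
      MeasureTheory.Integrable (A.indicator (1 : (ι → Bool) → ℂ)) ν := fun A hA =>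
    (MeasureTheory.integrable_const (1 : ℂ)).indicator hA
  unfold H0254.Zc StronglyRayleigh.genPoly H0254.pOf
  simp only [MeasureTheory.measureReal_def, hreal _ (hm _), hreal _ (H0254.measurableSet_all _),
    ← MeasureTheory.integral_const_mul, ← MeasureTheory.integral_mul_const]
  rw [← MeasureTheory.integral_finsetSum _ fun S _ =>
      (hint _ (H0254.measurableSet_all _)).const_mul _,
    ← MeasureTheory.integral_finsetSum _ fun S _ => (hint _ (hm _)).mul_const _]
  congr 1
  funext ω
  rw [Finset.sum_eq_single (F.filter fun i => ω i = true) (f := fun S =>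
    Set.indicator {ω : ι → Bool | ∀ i ∈ F, (ω i = true ↔ i ∈ S)} (1 : (ι → Bool) → ℂ) ω *
      ∏ i ∈ S, z i)]
  · rw [Set.indicator_of_mem (by simp +contextual), Pi.one_apply, one_mul, Finset.prod_filter]
    have : ∀ S : Finset ι, Set.indicator {ω : ι → Bool | ∀ j ∈ S, ω j = true}
        (1 : (ι → Bool) → ℂ) ω = ∏ j ∈ S, (H0254.bit (ω j) : ℂ) := by
      intro S
      rw [← Complex.ofReal_prod, H0254.prod_bit]
      by_cases h : ω ∈ {ω : ι → Bool | ∀ j ∈ S, ω j = true}
      · simp [Set.indicator_of_mem h]
      · simp [Set.indicator_of_notMem h]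
    simp only [this, ← Finset.prod_mul_distrib, ← Finset.prod_one_add]
    refine Finset.prod_congr rfl fun j _ => ?_
    cases ω j <;> simp [H0254.bit]
  · intro S hS hne
    rw [Set.indicator_of_notMem, zero_mul]
    intro h
    apply hne
    ext i
    simp only [Finset.mem_filter]
    constructor
    · intro hi
      have hiF := Finset.mem_powerset.1 hS hi
      exact ⟨hiF, (h i hiF).2 hi⟩
    · rintro ⟨h1, h2⟩
      exact (h i h1).1 h2
  · intro h
    exact absurd (Finset.mem_powerset.2 (Finset.filter_subset _ _)) h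

/-- For a countable group `Γ` and a strongly Rayleigh probability law `ν` on binary configurations `Γ → Bool` that is invariant under every left shift `a ↦ (h ↦ a (g⁻¹ h))`, there is a measurable map from independent uniform labels indexed by `Γ` to configurations that commutes with every left shift and pushes the label law forward to `ν`. -/
theorem result (Γ : Type*) [Group Γ]
    [Countable Γ] (ν : MeasureTheory.Measure (Γ → Bool)) [MeasureTheory.IsProbabilityMeasure ν]
    (hsr : Crest.ProbabilityR.StronglyRayleigh.IsStronglyRayleigh ν)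
    (hinv : Crest.ProbabilityR.StronglyRayleigh.IsShiftInvariant ν) :
    ∃ Φ : (Γ → unitInterval) → (Γ → Bool), Measurable Φ ∧
      (∀ (g : Γ) (u : Γ → unitInterval),
        Φ (Crest.ProbabilityR.StronglyRayleigh.leftShift g u) =
          Crest.ProbabilityR.StronglyRayleigh.leftShift g (Φ u)) ∧
      (Crest.ProbabilityR.Labels.labelMeasure Γ).map Φ = ν := by
  classical
  obtain ⟨f, hf⟩ := exists_surjective_nat Γ
  obtain ⟨ζ, hζ, hζl⟩ := MeasureTheory.Measure.exists_measurable_map_eq H0254.lap
  let Λ : Γ → ℕ → Finset Γ := fun g n => (Finset.range n).image fun k => g * f k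
  have hmono : ∀ g, Monotone (Λ g) := fun g m n hmn =>
    Finset.image_subset_image (Finset.range_mono hmn)
  have hex : ∀ g j, ∃ n, j ∈ Λ g n := by
    intro g j
    obtain ⟨k, hk⟩ := hf (g⁻¹ * j)
    exact ⟨k + 1, Finset.mem_image.2 ⟨k, by simp, by simp [hk]⟩⟩
  have hL : H0254.LipMean (H0254.pOf ν) 300 := H0254.lip_of_stab ν fun s =>
    ⟨s, subset_rfl, fun z hz => by rw [Zc_eq_genPoly]; exact hsr s z hz⟩
  have hmain := H0254.main_law hmono hex (by norm_num) hL
  have hrm : Measurable (H0254.rule (H0254.pOf ν) Λ) := measurable_pi_lambda _ fun i =>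
    H0254.measurable_rule (Θ := Γ → ℝ) (p := fun _ => H0254.pOf ν)
      (fun _ => measurable_const) (Λ := fun _ => Λ) (fun _ _ _ => MeasurableSet.const _)
      (z := fun z => z) (fun j => measurable_pi_apply j) i
  have hz : Measurable fun (u : Γ → unitInterval) (i : Γ) => ζ (u i) := by fun_prop
  refine ⟨fun u => H0254.rule (H0254.pOf ν) Λ fun i => ζ (u i), hrm.comp hz, ?_, ?_⟩
  · intro g u
    funext h
    have := H0254.rule_map (Equiv.mulLeft g⁻¹).toEmbedding (H0254.pOf ν) (H0254.pOf ν) Λ Λ ?_ ?_
      (fun i => ζ (u i)) h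
    · exact this.symm
    · intro F
      unfold H0254.pOf
      rw [MeasureTheory.measureReal_def, MeasureTheory.measureReal_def,
        ← hinv g _ (H0254.measurableSet_all F)]
      congr 2
      ext ω
      simp only [Set.mem_preimage, Set.mem_ofPred_eq, StronglyRayleigh.leftShift, Finset.forall_mem_map]
      rfl
    · intro i n
      simp only [Λ, Finset.map_eq_image, Finset.image_image]
      congr 1
      funext k
      simp [mul_assoc]
  · refine Eq.trans ?_ hmain
    rw [show (fun u : Γ → unitInterval => H0254.rule (H0254.pOf ν) Λ fun i => ζ (u i)) =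
      H0254.rule (H0254.pOf ν) Λ ∘ fun (u : Γ → unitInterval) (i : Γ) => ζ (u i) from rfl,
      ← MeasureTheory.Measure.map_map hrm hz, Labels.labelMeasure,
      MeasureTheory.Measure.infinitePi_map_pi _ fun _ => hζ]
    simp only [hζl]

end Crest.Agent.S0255
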