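import Crest.Statements.S0270
import Crest.Agent.KU.Avg
import Crest.Agent.KU.BC
import Crest.Agent.KU.Ech
import Crest.Agent.KU.Ev
import Crest.Agent.KU.GenB
import Crest.Agent.KU.NCB
import Crest.Agent.KU.PI
import Crest.Agent.KU.SS
import Crest.Agent.KU.CB
import Crest.Agent.KU.GenV
import Crest.Agent.KU.GenX
import Crest.Agent.KU.Jet
import Crest.Agent.KU.MorB
import Crest.Agent.KU.Nat
import Crest.Agent.KU.Inv
import Crest.Agent.KU.Mor
import Crest.Agent.KU.NF
import Crest.Agent.KU.R1
import Crest.Agent.KU.Solve
import Crest.Agent.KU.SubK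
import Crest.Agent.KU.A12
import Crest.Agent.KU.ExtK
import Crest.Agent.KU.Spl
import Crest.Agent.KU.A3
import Crest.Agent.KU.A4
import Crest.Agent.KU.A5
import Crest.Agent.KU.Cls
import Crest.Agent.KU.JT
import Crest.Agent.KU.NT
import Crest.Agent.KU.P1a
import Crest.Agent.KU.Br
import Crest.Agent.KU.P1b
import Crest.Agent.KU.P1
import Crest.Agent.KU.Step
import Crest.Agent.KU.P2
import Crest.Agent.KU.Final

set_option autoImplicit false
open Crest Crest.AlgebraR

namespace Crest.Agent.S0270

/-- There is a countable division ring of characteristic zero that is algebraic over its centre and is generated by two of its elements as an algebra over the centre, yet is infinite-dimensional as a vector space over the centre. -/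
theorem result :
    ∃ (D : Type) (_ : DivisionRing D), Countable D ∧ CharZero D ∧
      Algebra.IsAlgebraic (Subring.center D) D ∧
      (∃ x y : D, Algebra.adjoin (Subring.center D) ({x, y} : Set D) = ⊤) ∧
      ¬ FiniteDimensional (Subring.center D) D := by
  open Crest.Agent.KU in
  have mb : JobMorB := jobMorB jobEch
  have mor : JobMor := jobMor jobEv jobEch jobJet mb
  have genX : JobGenX := jobGenX
  have extK : JobExtK := jobExtK jobEv jobNCB jobSS jobJet jobNat mb mor
  have spl : JobSpl := jobSpl jobBC jobNat mb
  have a12 : JobA12 := jobA12 jobEch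
  have nt : JobNT := jobNT jobNCB jobGenB genX jobJet mb mor extK
  have jt : JobJT := jobJT jobSS jobJet mb extK jobAvg spl
  have p1a : JobP1a := jobP1a jobEch jobGenB genX jobJet mb extK nt
  have p1b : JobP1b := jobP1b jobEch jobGenB jobCB genX jobJet mb extK nt p1a
  have br : JobBr := jobBr jobEch jobAvg jobJet mb extK spl nt jt
  have step : JobStep := jobStep jobGenB genX (jobNF jobJet) br
  have p2 : JobP2 := jobP2 step jobNCB jobGenB jobGenV jobCB a12
    (jobA3 jobEch jobJet jobNat jobAvg a12) (jobA4 jobNCB jobAvg jobJet jobNat a12)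
    (jobA5 jobJet jobEch a12) jobInv (jobCls jobBC spl jobInv) jobR1
    (jobSolve jobEv jobNCB jobInv) jobSubK
  exact jobFinal jobNCB nt jobPI (jobP1 jobNCB jobSS mb nt p1a p1b p2).2

end Crest.Agent.S0270
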