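import Crest.Statements.S0275
import Crest.Agent.GSC.Main
import Crest.Agent.GSC.DesP

set_option autoImplicit false
open Crest Crest.AlgebraR

namespace Crest.Agent.S0275

/-- Let m be the central binomial coefficient (1200 choose 600) and p the least divisor greater than one of (m!)^2 + 1. Then p is an odd prime, and there are a field with p^4 elements, a finitely generated group containing a non-identity element of finite order, and two elements a and b of the group algebra of that group over that field with a * b = 1 but b * a ≠ 1. -/
theorem result :
    Nat.Prime (Nat.minFac ((Nat.choose 1200 600).factorial ^ 2 + 1)) ∧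
    Odd (Nat.minFac ((Nat.choose 1200 600).factorial ^ 2 + 1)) ∧
    ∃ (K : Type) (_ : Field K) (G : Type) (_ : Group G),
      Nat.card K = Nat.minFac ((Nat.choose 1200 600).factorial ^ 2 + 1) ^ 4 ∧
      Group.FG G ∧ (∃ g : G, g ≠ 1 ∧ IsOfFinOrder g) ∧
      ∃ a b : MonoidAlgebra K G, a * b = 1 ∧ b * a ≠ 1 := by
  exact Crest.Agent.GSC.s0275_of_core Crest.Agent.GSC.coreStmt

end Crest.Agent.S0275
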