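import Crest.Statements.S0291
import Crest.Agent.H0291.Fin
import Crest.Agent.H0291.Bern
-- import your own Crest.Agent.* helpers here

set_option autoImplicit false
open Crest Crest.AlgebraR

namespace Crest.Agent.S0291

/-- Some finitely generated group has an essentially free probability-measure-preserving action on a standard Borel probability space of cost at least 1 + α/100 for every real α with 0 < α < 1/200 and e^96 · 96^99 · α^3 / 95^95 < 1/2, and, for each natural number M > 100, one of cost at most 1 + 99/M. An action's cost is the infimum, over countable families of partial translations on measurable sets whose steps generate the orbit relation off a null set, of the total measure of the sets. -/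
theorem result :
    ∃ (Γ : Type) (_ : Group Γ), Group.FG Γ ∧
      (∃ (X : Type) (_ : MeasurableSpace X) (_ : StandardBorelSpace X) (μ : MeasureTheory.Measure X)
          (_ : MeasureTheory.IsProbabilityMeasure μ) (_ : MulAction Γ X),
          Crest.Dynamics.IsFreePMPAction Γ X μ ∧
          ∀ α : ℝ, 0 < α → α < 1 / 200 → Real.exp 96 * 96 ^ 99 * α ^ 3 / 95 ^ 95 < 1 / 2 →
            1 + ENNReal.ofReal (α / 100) ≤ Crest.Dynamics.actionCost Γ X μ) ∧
      ∀ M : ℕ, 100 < M →
        ∃ (Y : Type) (_ : MeasurableSpace Y) (_ : StandardBorelSpace Y) (ν : MeasureTheory.Measure Y)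
          (_ : MeasureTheory.IsProbabilityMeasure ν) (_ : MulAction Γ Y),
          Crest.Dynamics.IsFreePMPAction Γ Y ν ∧
          Crest.Dynamics.actionCost Γ Y ν ≤ 1 + 99 / (M : ENNReal) := by
  exact Crest.Agent.H0291.final (Crest.Agent.H0291.bernM Crest.Agent.H0291.GG)
    (Crest.Agent.H0291.bern_gap Crest.Agent.H0291.theta (Crest.Agent.H0291.theta_ab 0)
      (Crest.Agent.H0291.theta_ab 1))

end Crest.Agent.S0291
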