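import Crest.Statements.S0300
import Crest.Agent.EG.AN
import Crest.Agent.EG.B1
import Crest.Agent.EG.B2
import Crest.Agent.EG.CH
import Crest.Agent.EG.COC
import Crest.Agent.EG.CW
import Crest.Agent.EG.Conn
import Crest.Agent.EG.DEG
import Crest.Agent.EG.DEG1
import Crest.Agent.EG.Final
import Crest.Agent.EG.Geo
import Crest.Agent.EG.Geo1
import Crest.Agent.EG.HolSec
import Crest.Agent.EG.K2
import Crest.Agent.EG.LL
import Crest.Agent.EG.Lab
import Crest.Agent.EG.Len
import Crest.Agent.EG.Lift
import Crest.Agent.EG.MU
import Crest.Agent.EG.Main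
import Crest.Agent.EG.NL
import Crest.Agent.EG.RES
import Crest.Agent.EG.RF
import Crest.Agent.EG.SC
import Crest.Agent.EG.Surj
import Crest.Agent.EG.Tel
import Crest.Agent.EG.Top
import Crest.Agent.EG.X1
import Crest.Agent.EG.X2

set_option autoImplicit false
open Crest Crest.AlgebraR

namespace Crest.Agent.S0300

/-- There is a finitely generated, residually finite group `G` of integral cohomological dimension two — its cohomology with coefficients in every `ℤ`-linear representation vanishes in all degrees at least three, and is non-zero in degree two for some representation — and of geometric dimension three: `G` is the fundamental group of an aspherical CW complex of dimension at most three, but of no aspherical CW complex of dimension at most two, however many cells are allowed. -/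
theorem result :
    ∃ (G : Type) (_ : Group G),
      Group.FG G ∧ Group.ResiduallyFinite G ∧
      (∀ (A : Rep ℤ G) (n : ℕ), 3 ≤ n → CategoryTheory.Limits.IsZero (groupCohomology A n)) ∧
      (∃ A : Rep ℤ G, ¬ CategoryTheory.Limits.IsZero (groupCohomology A 2)) ∧
      Crest.Topology.HasClassifyingComplex G 3 ∧ ¬ Crest.Topology.HasClassifyingComplex G 2 :=
  EG.final (EG.jobAN (EG.jobDEG (EG.jobDEG1 EG.jobNL))) EG.jobCH EG.jobMAIN EG.jobRES
    (EG.jobTOP EG.jobCW (EG.jobHOL EG.jobCOC) EG.jobLAB (EG.jobLIFT EG.jobSEC)
      (EG.jobCONN EG.jobSEC) (EG.jobSC EG.jobCOC) (EG.jobSURJ EG.jobMU EG.jobSEC))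
    EG.jobLEN EG.jobRF EG.jobK2 EG.jobX1 EG.jobX2 EG.jobB1 (EG.jobB2 EG.jobTEL) EG.jobL
    (EG.jobGEO EG.jobGEO1)

end Crest.Agent.S0300
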