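import Crest.Statements.S0327
import Crest.Agent.H0211.Gen
-- import your own Crest.Agent.* helpers here

set_option autoImplicit false
open MeasureTheory
open scoped ENNReal
open Crest Crest.GeometryTopology Crest.GeometryTopology.Convex

namespace Crest.Agent.S0327

/-- Let K ⊂ ℝ³ be a regular tetrahedron (convex hull of four points with equal pairwise distances ℓ > 0); areas are Lebesgue-normalised 2-dimensional Hausdorff measure, π_v y = y − ⟪y, v⟫ v. (1) Finitely many cylinders Bᵢ + ℝ uᵢ, ‖uᵢ‖ = 1, with parallelogram bases Bᵢ = cᵢ + [0,1]aᵢ + [0,1]bᵢ in uᵢ^⊥ cover K, ∑ᵢ area(Bᵢ) being below half of area(π_v K) by a positive margin for all unit v, and ∑ᵢ area(Bᵢ)/area(π_{uᵢ} K) < 1/2. (2) The same with bounded relatively open subsets of the uᵢ^⊥ as bases. -/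
theorem result
    (w : Fin 4 → EuclideanSpace ℝ (Fin 3)) (ℓ : ℝ) (hℓ : 0 < ℓ)
    (hw : ∀ i j, i ≠ j → dist (w i) (w j) = ℓ) :
    (∃ (k : ℕ) (u c a b : Fin k → EuclideanSpace ℝ (Fin 3)),
      (∀ i, ‖u i‖ = 1) ∧
      (∀ i, inner ℝ (c i) (u i) = 0 ∧ inner ℝ (a i) (u i) = 0 ∧ inner ℝ (b i) (u i) = 0) ∧
      convexHull ℝ (Set.range w) ⊆ ⋃ i, {x : EuclideanSpace ℝ (Fin 3) |
        ∃ s ∈ Set.Icc (0 : ℝ) 1, ∃ t ∈ Set.Icc (0 : ℝ) 1, ∃ τ : ℝ, x = c i + s • a i + t • b i + τ • u i} ∧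
      (∃ δ : ℝ, 0 < δ ∧ ∀ v : EuclideanSpace ℝ (Fin 3), ‖v‖ = 1 →
        (∑ i, (μHE[2] {x : EuclideanSpace ℝ (Fin 3) |
            ∃ s ∈ Set.Icc (0 : ℝ) 1, ∃ t ∈ Set.Icc (0 : ℝ) 1, x = c i + s • a i + t • b i}).toReal) + δ ≤
          (μHE[2] ((fun y => y - inner ℝ y v • v) '' convexHull ℝ (Set.range w))).toReal / 2) ∧
      ∑ i, (μHE[2] {x : EuclideanSpace ℝ (Fin 3) |
            ∃ s ∈ Set.Icc (0 : ℝ) 1, ∃ t ∈ Set.Icc (0 : ℝ) 1, x = c i + s • a i + t • b i}).toReal /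
          (μHE[2] ((fun y => y - inner ℝ y (u i) • u i) '' convexHull ℝ (Set.range w))).toReal < 1 / 2) ∧
    (∃ (k : ℕ) (u : Fin k → EuclideanSpace ℝ (Fin 3)) (B : Fin k → Set (EuclideanSpace ℝ (Fin 3))),
      (∀ i, ‖u i‖ = 1) ∧
      (∀ i, Bornology.IsBounded (B i) ∧ ∃ O : Set (EuclideanSpace ℝ (Fin 3)), IsOpen O ∧
        B i = O ∩ {x | inner ℝ x (u i) = 0}) ∧
      convexHull ℝ (Set.range w) ⊆
        ⋃ i, {x : EuclideanSpace ℝ (Fin 3) | ∃ y ∈ B i, ∃ τ : ℝ, x = y + τ • u i} ∧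
      (∃ δ : ℝ, 0 < δ ∧ ∀ v : EuclideanSpace ℝ (Fin 3), ‖v‖ = 1 →
        (∑ i, (μHE[2] (B i)).toReal) + δ ≤
          (μHE[2] ((fun y => y - inner ℝ y v • v) '' convexHull ℝ (Set.range w))).toReal / 2) ∧
      ∑ i, (μHE[2] (B i)).toReal /
          (μHE[2] ((fun y => y - inner ℝ y (u i) • u i) '' convexHull ℝ (Set.range w))).toReal < 1 / 2) := by
  obtain ⟨m, hm, hproj, k, u, c, a, b, h1, h2, h3, h4⟩ := H0211.gen_cover w ℓ hℓ hw
  have e : ∀ v : H0211.E3, ‖v‖ = 1 → (fun y => y - inner ℝ y v • v) = H0211.prj v := by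
    intro v hv
    ext1 y; rw [H0211.prj_unit _ _ hv]
  have fin : ∀ A : Fin k → ℝ, (∀ i, 0 ≤ A i) → ∑ i, A i < m / 2 →
      (∃ δ : ℝ, 0 < δ ∧ ∀ v : EuclideanSpace ℝ (Fin 3), ‖v‖ = 1 → (∑ i, A i) + δ ≤
          (μHE[2] ((fun y => y - inner ℝ y v • v) '' convexHull ℝ (Set.range w))).toReal / 2) ∧
      ∑ i, A i / (μHE[2] ((fun y => y - inner ℝ y (u i) • u i) ''
        convexHull ℝ (Set.range w))).toReal < 1 / 2 := by
    intro A hA0 hA
    refine ⟨⟨m / 2 - ∑ i, A i, by linarith, fun v hv => ?_⟩, ?_⟩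
    · rw [e v hv]
      linarith [hproj v hv]
    · have : ∑ i, A i / (μHE[2] ((fun y => y - inner ℝ y (u i) • u i) ''
          convexHull ℝ (Set.range w))).toReal ≤ ∑ i, A i / m := by
        apply Finset.sum_le_sum
        intro i _
        rw [e _ (h1 i)]
        exact div_le_div_of_nonneg_left (hA0 i) hm (hproj _ (h1 i))
      refine this.trans_lt ?_
      rw [← Finset.sum_div, div_lt_iff₀ hm]
      linarith
  constructor
  · refine ⟨k, u, c, a, b, h1, h2, ?_, fin _ (fun i => ENNReal.toReal_nonneg) h4⟩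
    intro x hx
    obtain ⟨i, _, ⟨s, hs, t, ht, rfl⟩, τ, rfl⟩ := h3 x hx
    exact Set.mem_iUnion.mpr ⟨i, s, hs, t, ht, τ, rfl⟩
  · obtain ⟨η, hη⟩ : ∃ η, η = (m / 2 - ∑ i, (μHE[2] (H0211.pgram (c i) (a i) (b i))).toReal) /
        (k + 1) := ⟨_, rfl⟩
    have hη0 : 0 < η := by rw [hη]; exact div_pos (by linarith) (by positivity)
    have hB : ∀ i, ∃ B : Set H0211.E3, H0211.pgram (c i) (a i) (b i) ⊆ B ∧ Bornology.IsBounded B ∧
        (∃ O : Set H0211.E3, IsOpen O ∧ B = O ∩ {x | inner ℝ x (u i) = 0}) ∧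
        (μHE[2] B).toReal ≤ (μHE[2] (H0211.pgram (c i) (a i) (b i))).toReal + η := by
      intro i
      refine H0211.open_enlarge (u i) (by intro h; simpa [h] using h1 i) _
        (H0211.pgram_compact _ _ _) ?_ η hη0
      rintro _ ⟨s, _, t, _, rfl⟩
      obtain ⟨g1, g2, g3⟩ := h2 i
      simp [inner_add_left, real_inner_smul_left, g1, g2, g3]
    choose B hB1 hB2 hB3 hB4 using hB
    refine ⟨k, u, B, h1, fun i => ⟨hB2 i, hB3 i⟩, ?_, fin _ (fun i => ENNReal.toReal_nonneg) ?_⟩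
    · intro x hx
      obtain ⟨i, y, hy, τ, rfl⟩ := h3 x hx
      exact Set.mem_iUnion.mpr ⟨i, y, hB1 i hy, τ, rfl⟩
    · refine (Finset.sum_le_sum fun i _ => hB4 i).trans_lt ?_
      rw [Finset.sum_add_distrib]
      simp only [Finset.sum_const, Finset.card_univ, Fintype.card_fin, nsmul_eq_mul]
      have : η * (k + 1) = m / 2 - ∑ i, (μHE[2] (H0211.pgram (c i) (a i) (b i))).toReal := by
        rw [hη]; field_simp
      linarith

end Crest.Agent.S0327
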