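import Crest.Statements.S0328
import Crest.Agent.H0326.Sweep

set_option autoImplicit false
open MeasureTheory
open scoped ENNReal
open Crest Crest.GeometryTopology Crest.GeometryTopology.Convex

namespace Crest.Agent.S0328

open Crest.Agent.H0326

lemma num {Rc Rb ω y s κ Δ I V : ℝ} (h0 : 0 ≤ Rc) (h1 : Rc ≤ Rb) (hω : 0 ≤ ω) (hω' : ω ≤ 1 / 2)
    (hy : 0 ≤ y) (hy' : y ≤ ω) (hs : 1 ≤ s) (hκ : 0 < κ) (hΔ : 0 < Δ)
    (hI : |I - Rc ^ 2 / (2 * s) * Δ| ≤ ω * Δ)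
    (hV : (max (Rc - ω) 0) ^ 2 * Δ * (κ / s) / 2 ≤ V) (hV' : V ≤ (Rc + ω + y) ^ 2 * Δ * (κ / s) / 2) :
    |V - κ * I| ≤ κ * ((2 * Rb + 2) * ω) * Δ := by
  have hs0 : 0 < s := by linarith
  set G := κ / s with hG
  have hG0 : 0 < G := by positivity
  have hG1 : G ≤ κ := div_le_self hκ.le hs
  have e1 : κ * (Rc ^ 2 / (2 * s) * Δ) = Rc ^ 2 * Δ * G / 2 := by rw [hG]; field_simp
  have hm : Rc ^ 2 - (2 * Rb + 1) * (2 * ω) ≤ (max (Rc - ω) 0) ^ 2 := by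
    rcases le_total (Rc - ω) 0 with h | h
    · rw [max_eq_right h]; nlinarith
    · rw [max_eq_left h]; nlinarith
  have hH : (Rc + ω + y) ^ 2 ≤ Rc ^ 2 + (2 * Rb + 1) * (2 * ω) := by nlinarith
  have hC : 0 ≤ (2 * Rb + 1) * (2 * ω) := by
    have : 0 ≤ Rb := h0.trans h1
    positivity
  have b1 : (Rc ^ 2 - (2 * Rb + 1) * (2 * ω)) * Δ * G / 2 ≤ V := le_trans (by gcongr) hV
  have b2 : V ≤ (Rc ^ 2 + (2 * Rb + 1) * (2 * ω)) * Δ * G / 2 := le_trans hV' (by gcongr)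
  have b3 : (2 * Rb + 1) * (2 * ω) * Δ * G ≤ (2 * Rb + 1) * (2 * ω) * Δ * κ := by gcongr
  have b4 : |κ * I - κ * (Rc ^ 2 / (2 * s) * Δ)| ≤ κ * (ω * Δ) := by
    rw [← mul_sub, abs_mul, abs_of_pos hκ]; gcongr
  rw [e1, abs_le] at b4
  rw [abs_le]
  constructor <;> nlinarith

/-- Unit e; a, b, p₀ ∈ e^⊥, a, b independent; α < β; L > 0; R ≥ 0, λ both continuous on [α, β]; w(t) ∈ e^⊥, w′ = λ(t)(a + tb). S = {p₀ + ρ(a + t b) + s(e + w t) : α ≤ t ≤ β, 0 ≤ ρ ≤ R t, ‖s‖ ≤ L}; A = κ ∫_α^β R²/(2√(1 + ‖w‖²)), κ = area spanned by a, b. For η > 0 a δ > 0 makes each partition t₀ < … < t_N of [α, β] of mesh ≤ δ, tags cᵢ, admit N cylinders (axes e + w(cᵢ), nondegenerate triangle bases) covering S, total area within η of A; same for S's pieces tᵢ ≤ t ≤ tᵢ₊₁ projected along these axes. -/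
theorem result
    (e a b p₀ : EuclideanSpace ℝ (Fin 3)) (he : ‖e‖ = 1)
    (ha : inner ℝ a e = 0) (hb : inner ℝ b e = 0) (hp₀ : inner ℝ p₀ e = 0)
    (hab : LinearIndependent ℝ ![a, b]) (L : ℝ) (hL : 0 < L) (α β : ℝ) (hαβ : α < β)
    (R : ℝ → ℝ) (hR : ContinuousOn R (Set.Icc α β)) (hR0 : ∀ t ∈ Set.Icc α β, 0 ≤ R t)
    (w : ℝ → EuclideanSpace ℝ (Fin 3)) (hw : ∀ t ∈ Set.Icc α β, inner ℝ (w t) e = 0)
    (lam : ℝ → ℝ) (hlam : ContinuousOn lam (Set.Icc α β))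
    (hw' : ∀ t ∈ Set.Icc α β, HasDerivWithinAt w (lam t • (a + t • b)) (Set.Icc α β) t)
    (η : ℝ) (hη : 0 < η) :
    ∃ δ : ℝ, 0 < δ ∧ ∀ (N : ℕ) (t : Fin (N + 1) → ℝ) (c : Fin N → ℝ),
      StrictMono t → t 0 = α → t (Fin.last N) = β →
      (∀ i : Fin N, t i.succ - t i.castSucc ≤ δ) →
      (∀ i : Fin N, t i.castSucc ≤ c i ∧ c i ≤ t i.succ) →
      (∃ (p q r : Fin N → EuclideanSpace ℝ (Fin 3)),
        (∀ i, inner ℝ (p i) (e + w (c i)) = 0 ∧ inner ℝ (q i) (e + w (c i)) = 0 ∧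
          inner ℝ (r i) (e + w (c i)) = 0) ∧
        (∀ i, AffineIndependent ℝ ![p i, q i, r i]) ∧
        {x : EuclideanSpace ℝ (Fin 3) | ∃ τ ∈ Set.Icc α β, ∃ ρ ∈ Set.Icc 0 (R τ), ∃ s : ℝ, abs s ≤ L ∧
            x = p₀ + ρ • (a + τ • b) + s • (e + w τ)} ⊆
          ⋃ i, {x : EuclideanSpace ℝ (Fin 3) | ∃ y ∈ convexHull ℝ {p i, q i, r i}, ∃ σ : ℝ,
            x = y + σ • (e + w (c i))} ∧
        abs ((∑ i, (μHE[2] (convexHull ℝ ({p i, q i, r i} : Set (EuclideanSpace ℝ (Fin 3))))).toReal) -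
            Real.sqrt (‖a‖ ^ 2 * ‖b‖ ^ 2 - inner ℝ a b ^ 2) *
              ∫ τ in α..β, R τ ^ 2 / (2 * Real.sqrt (1 + ‖w τ‖ ^ 2))) ≤ η) ∧
      abs ((∑ i : Fin N, (μHE[2] ((fun y => y - (inner ℝ y (e + w (c i)) / ‖e + w (c i)‖ ^ 2) • (e + w (c i))) ''
            {x : EuclideanSpace ℝ (Fin 3) | ∃ τ ∈ Set.Icc (t i.castSucc) (t i.succ), ∃ ρ ∈ Set.Icc 0 (R τ),
              ∃ s : ℝ, abs s ≤ L ∧ x = p₀ + ρ • (a + τ • b) + s • (e + w τ)})).toReal) -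
          Real.sqrt (‖a‖ ^ 2 * ‖b‖ ^ 2 - inner ℝ a b ^ 2) *
            ∫ τ in α..β, R τ ^ 2 / (2 * Real.sqrt (1 + ‖w τ‖ ^ 2))) ≤ η := by
  have hwc : ContinuousOn w (Set.Icc α β) := fun t ht => (hw' t ht).continuousWithinAt
  obtain ⟨Λ, hΛ⟩ := isCompact_Icc.exists_bound_of_continuousOn hlam
  obtain ⟨Rb, hRb⟩ := isCompact_Icc.exists_bound_of_continuousOn hR
  have hα : α ∈ Set.Icc α β := ⟨le_rfl, hαβ.le⟩
  have hΛ0 : 0 ≤ Λ := (norm_nonneg _).trans (hΛ α hα)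
  have hRb0 : 0 ≤ Rb := (norm_nonneg _).trans (hRb α hα)
  set F : ℝ → ℝ := fun τ => R τ ^ 2 / (2 * √(1 + ‖w τ‖ ^ 2)) with hF
  have hFc : ContinuousOn F (Set.Icc α β) := by
    refine (hR.pow 2).div ?_ (fun x _ => by positivity)
    exact continuousOn_const.mul ((continuousOn_const.add (hwc.norm.pow 2)).sqrt)
  have hκ : 0 < gram a b := gram_pos hab
  change ∃ δ : ℝ, 0 < δ ∧ ∀ (N : ℕ) (t : Fin (N + 1) → ℝ) (c : Fin N → ℝ),
      StrictMono t → t 0 = α → t (Fin.last N) = β →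
      (∀ i : Fin N, t i.succ - t i.castSucc ≤ δ) →
      (∀ i : Fin N, t i.castSucc ≤ c i ∧ c i ≤ t i.succ) →
      (∃ (p q r : Fin N → EuclideanSpace ℝ (Fin 3)),
        (∀ i, inner ℝ (p i) (e + w (c i)) = 0 ∧ inner ℝ (q i) (e + w (c i)) = 0 ∧
          inner ℝ (r i) (e + w (c i)) = 0) ∧
        (∀ i, AffineIndependent ℝ ![p i, q i, r i]) ∧
        {x : EuclideanSpace ℝ (Fin 3) | ∃ τ ∈ Set.Icc α β, ∃ ρ ∈ Set.Icc 0 (R τ), ∃ s : ℝ, abs s ≤ L ∧
            x = p₀ + ρ • (a + τ • b) + s • (e + w τ)} ⊆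
          ⋃ i, {x : EuclideanSpace ℝ (Fin 3) | ∃ y ∈ convexHull ℝ {p i, q i, r i}, ∃ σ : ℝ,
            x = y + σ • (e + w (c i))} ∧
        abs ((∑ i, (μHE[2] (convexHull ℝ ({p i, q i, r i} : Set (EuclideanSpace ℝ (Fin 3))))).toReal) -
            gram a b * ∫ τ in α..β, F τ) ≤ η) ∧
      abs ((∑ i : Fin N, (μHE[2] (pr (e + w (c i)) ''
            {x : EuclideanSpace ℝ (Fin 3) | ∃ τ ∈ Set.Icc (t i.castSucc) (t i.succ), ∃ ρ ∈ Set.Icc 0 (R τ),
              ∃ s : ℝ, abs s ≤ L ∧ x = p₀ + ρ • (a + τ • b) + s • (e + w τ)})).toReal) -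
          gram a b * ∫ τ in α..β, F τ) ≤ η
  set κ := gram a b with hκd
  set K := L * Λ + 1 with hK
  have hK0 : 0 < K := by positivity
  have hβα : 0 < β - α := by linarith
  set ω := min (1 / 2) (η / (κ * (2 * Rb + 2) * (β - α))) with hωd
  have hω0 : 0 < ω := lt_min (by norm_num) (by positivity)
  have hω1 : ω ≤ 1 / 2 := min_le_left _ _
  have hω2 : κ * ((2 * Rb + 2) * ω) * (β - α) ≤ η := by
    have : ω ≤ η / (κ * (2 * Rb + 2) * (β - α)) := min_le_right _ _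
    rw [le_div_iff₀ (by positivity)] at this
    linarith
  obtain ⟨δ₁, hδ₁, u₁⟩ := Metric.uniformContinuousOn_iff_le.1
    (isCompact_Icc.uniformContinuousOn_of_continuous hR) ω hω0
  obtain ⟨δ₂, hδ₂, u₂⟩ := Metric.uniformContinuousOn_iff_le.1
    (isCompact_Icc.uniformContinuousOn_of_continuous hFc) ω hω0
  refine ⟨min (min δ₁ δ₂) (ω / (5 * K)), by positivity, ?_⟩
  intro N t c ht h0 hN hmesh hc
  have hlt : ∀ i : Fin N, t i.castSucc < t i.succ := fun i => ht i.castSucc_lt_succ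
  have hmem : ∀ j, t j ∈ Set.Icc α β := fun j =>
    ⟨h0 ▸ ht.monotone (Fin.zero_le j), hN ▸ ht.monotone (Fin.le_last j)⟩
  have hsub : ∀ i : Fin N, Set.Icc (t i.castSucc) (t i.succ) ⊆ Set.Icc α β := fun i =>
    Set.Icc_subset_Icc (hmem _).1 (hmem _).2
  have hcm : ∀ i : Fin N, c i ∈ Set.Icc α β := fun i => hsub i (hc i)
  have hdist : ∀ i : Fin N, ∀ τ ∈ Set.Icc (t i.castSucc) (t i.succ),
      |τ - c i| ≤ t i.succ - t i.castSucc := fun i τ hτ => by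
    rw [abs_le]; constructor <;> linarith [hτ.1, hτ.2, (hc i).1, (hc i).2]
  have hP := fun i : Fin N => piece (p₀ := p₀) he ha hb hab (hw _ (hcm i)) hL.le R w (hc i).1 (hc i).2
    (hlt i) hK0 hω0.le (fun τ hτ => hR0 τ (hsub i hτ))
    (fun τ hτ => u₁ τ (hsub i hτ) _ (hcm i)
      ((hdist i τ hτ).trans ((hmesh i).trans ((min_le_left _ _).trans (min_le_left _ _)))))
    (fun τ hτ => by
      obtain ⟨x, z, hx, hz, hxz⟩ := w_diff hlam hw' hΛ (hcm i) (hsub i hτ)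
      have d1 := hdist i τ hτ
      have d0 := abs_nonneg (τ - c i)
      have d2 := d0.trans d1
      refine ⟨x, z, ?_, ?_, hxz⟩
      · calc L * |x| ≤ L * (Λ * (t i.succ - t i.castSucc)) := by
              gcongr; exact hx.trans (by gcongr)
          _ ≤ K * (t i.succ - t i.castSucc) := by rw [hK]; nlinarith
      · calc L * |z| ≤ L * (Λ * (t i.succ - t i.castSucc) * (t i.succ - t i.castSucc)) := by
              gcongr; exact hz.trans (by gcongr)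
          _ ≤ K * (t i.succ - t i.castSucc) ^ 2 := by rw [hK]; nlinarith)
  choose p q r horth hai hcov htri hlo hhi using hP
  have hFi : ∀ x ∈ Set.Icc α β, ∀ y ∈ Set.Icc α β, IntervalIntegrable F volume x y :=
    fun x hx y hy => (hFc.mono (Set.uIcc_subset_Icc hx hy)).intervalIntegrable
  have hsum : ∫ τ in α..β, F τ = ∑ i : Fin N, ∫ τ in (t i.castSucc)..(t i.succ), F τ := by
    have := sum_tele (fun j => ∫ τ in α..(t j), F τ)
    simp only [h0, hN, intervalIntegral.integral_same, sub_zero] at this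
    rw [← this]
    refine Finset.sum_congr rfl fun i _ => ?_
    exact intervalIntegral.integral_interval_sub_left (hFi _ hα _ (hmem _)) (hFi _ hα _ (hmem _))
  have key : ∀ V : Fin N → ℝ,
      (∀ i, (max (R (c i) - ω) 0) ^ 2 * (t i.succ - t i.castSucc) * (κ / √(1 + ‖w (c i)‖ ^ 2)) / 2
        ≤ V i) →
      (∀ i, V i ≤ (R (c i) + ω + 5 * K * (t i.succ - t i.castSucc)) ^ 2 * (t i.succ - t i.castSucc) *
        (κ / √(1 + ‖w (c i)‖ ^ 2)) / 2) →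
      |∑ i, V i - κ * ∫ τ in α..β, F τ| ≤ η := by
    intro V hV hV'
    rw [hsum, Finset.mul_sum, ← Finset.sum_sub_distrib]
    refine (Finset.abs_sum_le_sum_abs _ _).trans (le_trans ?_ hω2)
    have := sum_tele t
    rw [hN, h0] at this
    rw [← this, Finset.mul_sum]
    refine Finset.sum_le_sum fun i _ => ?_
    have hΔ : 0 < t i.succ - t i.castSucc := by linarith [hlt i]
    refine num (hR0 _ (hcm i)) ((le_abs_self _).trans (hRb _ (hcm i))) hω0.le hω1 (by positivity) ?_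
      (Real.one_le_sqrt.2 (by nlinarith [sq_nonneg ‖w (c i)‖])) hκ hΔ ?_ (hV i) (hV' i)
    · have := (hmesh i).trans (min_le_right _ _)
      rw [le_div_iff₀ (by positivity)] at this
      linarith
    · have e1 : R (c i) ^ 2 / (2 * √(1 + ‖w (c i)‖ ^ 2)) * (t i.succ - t i.castSucc) =
          ∫ _ in (t i.castSucc)..(t i.succ), F (c i) := by
        rw [intervalIntegral.integral_const, smul_eq_mul, mul_comm]
      rw [e1, ← intervalIntegral.integral_sub (hFi _ (hmem _) _ (hmem _)) (by simp)]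
      have := intervalIntegral.norm_integral_le_of_norm_le_const (a := t i.castSucc) (b := t i.succ)
        (f := fun τ => F τ - F (c i)) (C := ω) (fun x hx => by
          have hx' : x ∈ Set.Icc (t i.castSucc) (t i.succ) := by
            rw [Set.uIoc_of_le (hlt i).le] at hx
            exact Set.Ioc_subset_Icc_self hx
          exact u₂ x (hsub i hx') _ (hcm i)
            ((hdist i x hx').trans ((hmesh i).trans ((min_le_left _ _).trans (min_le_right _ _)))))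
      rwa [abs_of_pos hΔ] at this
  refine ⟨⟨p, q, r, horth, hai, ?_, key _ (fun i => ?_) (fun i => (htri i).le)⟩, key _ hlo hhi⟩
  · rintro x ⟨τ, hτ, hx⟩
    obtain ⟨i, h1, h2⟩ := exists_piece t (h0 ▸ hτ.1) (hN ▸ hτ.2) (by rw [h0, hN]; exact hαβ)
    exact Set.mem_iUnion.2 ⟨i, hcov i x ⟨τ, ⟨h1, h2⟩, hx⟩⟩
  · rw [htri i]; exact (hlo i).trans (hhi i)

end Crest.Agent.S0328
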