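import Crest.Statements.S0358
import Crest.Agent.H0358.Red

set_option autoImplicit false
open MeasureTheory
open scoped ENNReal
universe u
open Crest Crest.GeometryTopology

namespace Crest.Agent.S0358

/-- Fix an exponent `1 < p < ∞` with `p ≠ 2` and a distortion `D > 1`, and put `γ = 2 - p` if `p < 2` and `γ = 1 - 2/p` if `p > 2`. There is a constant `C`, depending only on `p` and `D`, such that for every `n ≥ 2`, every `n` distinct points of any real `L^p` space can be mapped to points of the `d`-dimensional real `ℓ^p` space for some `d ≤ exp (C (log n)^γ)`, so that after a common rescaling by some `s > 0` all pairwise distances are preserved up to the factor `D`. -/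
theorem result
    (p : ℝ≥0∞) [Fact (1 ≤ p)] (hp1 : 1 < p) (hptop : p ≠ ⊤) (hp2 : p ≠ 2)
    (D : ℝ) (hD : 1 < D) :
    ∃ C : ℝ, ∀ (n : ℕ), 2 ≤ n →
      ∀ (α : Type u) [MeasurableSpace α] (μ : Measure α) (x : Fin n → Lp ℝ p μ),
        Function.Injective x →
        ∃ d : ℕ, (d : ℝ) ≤ Real.exp (C * Real.log n ^ (if p.toReal < 2 then 2 - p.toReal else 1 - 2 / p.toReal)) ∧
          ∃ (y : Fin n → PiLp p (fun _ : Fin d => ℝ)) (s : ℝ), 0 < s ∧
            ∀ i j, s * ‖x i - x j‖ ≤ ‖y i - y j‖ ∧ ‖y i - y j‖ ≤ D * s * ‖x i - x j‖ := by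
  open H0358 in
  have p1 : 1 < p.toReal := by simpa using ENNReal.toReal_strict_mono hptop hp1
  have p2 : p.toReal ≠ 2 := fun h => hp2 ((ENNReal.toReal_eq_toReal_iff' hptop (by simp)).1 (by simpa using h))
  set q := p.toReal
  obtain ⟨ε, ⟨lo0, hi⟩, ε0, ε1⟩ : ∃ ε : ℝ, (0 < ((1 - ε) ^ q - ε) * (1 - ε) ∧
      ((1 + ε) ^ q + ε) * (1 + ε) < D ^ q * (((1 - ε) ^ q - ε) * (1 - ε))) ∧ ε ∈ Set.Ioo 0 1 := by
    have c := Real.continuous_rpow_const (by positivity : 0 ≤ q)
    have c1 : Continuous fun ε : ℝ => ((1 - ε) ^ q - ε) * (1 - ε) := by fun_prop (disch := intros; right; positivity)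
    have c2 : Continuous fun ε : ℝ => ((1 + ε) ^ q + ε) * (1 + ε) := by fun_prop (disch := intros; right; positivity)
    exact ((((continuousAt_const.eventually_lt c1.continuousAt (by simp)).and (c2.continuousAt.eventually_lt
      (continuous_const.mul c1).continuousAt (by simpa using Real.one_lt_rpow hD (by positivity)))).filter_mono
      nhdsWithin_le_nhds).and (Ioo_mem_nhdsGT one_pos)).exists
  obtain ⟨c, hc⟩ := mm p1 p2 ε0 ε1.le
  obtain ⟨k, k0, hk⟩ := samp p1 ε0 ε1.le
  set γ := if q < 2 then 2 - q else 1 - 2 / q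
  have hγ : |1 - 2 / q| - γ ≤ 0 := by
    simp only [γ]; split_ifs with h
    · rw [sub_nonpos, abs_sub_comm, abs_of_nonneg (sub_nonneg.2 ((one_le_div (by positivity)).2 h.le)), sub_le_iff_le_add,
        div_le_iff₀ (by positivity)]
      nlinarith
    · rw [abs_of_nonneg (sub_nonneg.2 ((div_le_one (by positivity)).2 (not_lt.1 h))), sub_self]
  refine ⟨|c| * Real.log 2 ^ (|1 - 2 / q| - γ) * k, fun n hn α _ μ x hx => ?_⟩
  obtain ⟨Λ, _, X, hX⟩ := red hptop x ε0
  obtain ⟨C, _, ν, v, s, A, s0, A2, A3, A4, hν, H⟩ := hc X (by simpa)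
  rw [Fintype.card_fin] at A3 A4
  set ρ : Fin n × Fin n → ℝ := fun e => s * np q fun l => gr (X l) e
  have ρ0 : ∀ e, 0 ≤ ρ e := fun e => mul_nonneg s0.le (np0 _ _)
  have n0 : (2 : ℝ) ≤ n := by exact_mod_cast hn
  obtain ⟨d, ω, l, hd, l0, hω⟩ := hk ν (fun e c => gr (v c) e / ρ e) A A2 (by
      rw [Fintype.card_prod, Fintype.card_fin, two_mul, Real.exp_add, Nat.cast_mul]
      have := (Real.log_le_iff_le_exp (by linarith)).1 A3
      gcongr) hν
    (fun e c => by
      rcases (ρ0 e).eq_or_lt with h | h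
      · simp only [← h, div_zero, abs_zero]; linarith
      · rw [abs_div, abs_of_pos h, div_le_iff₀ h]; exact (H e _ rfl h).2.2.1 c)
    (fun e => by
      rcases (ρ0 e).eq_or_lt with h | h
      · simp only [← h, div_zero, abs_zero, mul_zero, Finset.sum_const_zero]; linarith
      · simp only [abs_div, abs_of_pos h, ← mul_div_assoc, ← Finset.sum_div]; exact (div_le_iff₀ h).2 (H e _ rfl h).2.2.2)
  have L2 := Real.log_pos one_lt_two
  have L := Real.log_le_log two_pos n0
  refine ⟨d, hd.trans ((Real.rpow_le_rpow (by linarith) A4 k0).trans ?_), fun i => WithLp.toLp p fun k => ∑ c ∈ ω k, v c i,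
    (l * s ^ q * (((1 - ε) ^ q - ε) * (1 - ε))) ^ q⁻¹, by positivity, fun i j => ?_⟩
  · rw [← Real.exp_mul, Real.exp_le_exp, mul_right_comm _ k, mul_assoc |c|]
    refine mul_le_mul_of_nonneg_right (mul_le_mul (le_abs_self c) ?_ (by positivity) (abs_nonneg c)) k0
    rw [← sub_add_cancel |1 - 2 / q| γ, Real.rpow_add (by linarith), add_sub_cancel_right]
    exact mul_le_mul_of_nonneg_right (Real.rpow_le_rpow_of_nonpos L2 L hγ) (Real.rpow_nonneg (by linarith) _)
  rcases eq_or_ne i j with rfl | hij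
  · simp
  have D0 : 0 < ‖x i - x j‖ ^ q := Real.rpow_pos_of_pos (norm_pos_iff.2 (sub_ne_zero.2 (hx.ne hij))) _
  have a := abs_le.1 (hX (i, j) D0)
  have b : ρ (i, j) ^ q = s ^ q * ∑ l, |gr (X l) (i, j)| ^ q := by rw [Real.mul_rpow s0.le (np0 _ _), np_pow p1]
  have sq : 0 < s ^ q := by positivity
  have r1 : 0 < ρ (i, j) ^ q := b ▸ mul_pos sq (by nlinarith)
  have r0 : 0 < ρ (i, j) := (ρ0 _).lt_of_ne fun h => by rw [← h, Real.zero_rpow (by positivity)] at r1; exact r1.false
  obtain ⟨u1, u2, -⟩ := H _ _ rfl r0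
  have w := hω (i, j)
  simp only [← Finset.sum_div, abs_div, abs_of_pos r0, Real.div_rpow (abs_nonneg _) r0.le, ← mul_div_assoc, ← sub_div,
    abs_of_pos r1, div_le_iff₀ r1, abs_le] at w
  rw [Real.mul_rpow (by linarith) r0.le] at u1 u2
  have lo1 : 0 < (1 - ε) ^ q - ε := (mul_pos_iff_of_pos_right (by linarith)).1 lo0
  rw [← Real.rpow_le_rpow_iff (by positivity) (norm_nonneg _) (by positivity : 0 < q),
    ← Real.rpow_le_rpow_iff (norm_nonneg _) (by positivity) (by positivity : 0 < q), pi_pow hptop,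
    Real.mul_rpow (by positivity) (norm_nonneg _), Real.mul_rpow (by positivity) (norm_nonneg _),
    Real.mul_rpow (x := D) (by positivity) (by positivity), Real.rpow_inv_rpow (by positivity) (by positivity)]
  simp only [PiLp.sub_apply, ← Finset.sum_sub_distrib]
  change _ ≤ ∑ k, |∑ c ∈ ω k, gr (v c) (i, j)| ^ q ∧ ∑ k, |∑ c ∈ ω k, gr (v c) (i, j)| ^ q ≤ _
  have f1 : s ^ q * ((1 - ε) * ‖x i - x j‖ ^ q) ≤ ρ (i, j) ^ q := by rw [b]; gcongr; linarith [a.1]
  have f2 : ρ (i, j) ^ q ≤ s ^ q * ((1 + ε) * ‖x i - x j‖ ^ q) := by rw [b]; gcongr; linarith [a.2]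
  have g1 := mul_le_mul_of_nonneg_left f1 (mul_pos l0 lo1).le
  have g2 := mul_le_mul_of_nonneg_left f2 (by positivity : 0 ≤ l * ((1 + ε) ^ q + ε))
  have g3 := mul_le_mul_of_nonneg_left hi.le (by positivity : 0 ≤ l * s ^ q * ‖x i - x j‖ ^ q)
  have g4 := mul_le_mul_of_nonneg_left u1 l0.le
  have g5 := mul_le_mul_of_nonneg_left u2 l0.le
  constructor <;> linarith [w.1, w.2]

end Crest.Agent.S0358
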