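import Crest.Statements.S0359
import Crest.Agent.H0358.Red

set_option autoImplicit false
open MeasureTheory
open scoped ENNReal
open Crest Crest.GeometryTopology

namespace Crest.Agent.S0359

noncomputable def cl (q a b : ℝ) : ℝ := (q - 2) * (|a - -b| ^ q + |a - b| ^ q - 2 * |a - 0| ^ q - 2 * |b - 0| ^ q)

lemma cl_pos {q a b : ℝ} (h1 : 1 < q) (h2 : q ≠ 2) (h : a * b ≠ 0) : 0 < cl q a b := by
  have e : ∀ x : ℝ, |x| ^ q = (x ^ 2) ^ (q / 2) := fun x => by
    rw [← sq_abs, ← Real.rpow_natCast_mul (abs_nonneg _)]; congr 1; push_cast; ring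
  have ne : (a - -b) ^ 2 ≠ (a - b) ^ 2 := fun c => h (by linarith)
  have e2 : (1 / 2 : ℝ) • (a - -b) ^ 2 + (1 / 2 : ℝ) • (a - b) ^ 2 = a ^ 2 + b ^ 2 := by simp only [smul_eq_mul]; ring
  simp only [cl, e, sub_zero]
  rcases lt_or_gt_of_ne h2 with c | c
  · have := (Real.strictConcaveOn_rpow (p := q / 2) (by positivity) (by linarith)).2 (Set.mem_Ici.2 (sq_nonneg _))
      (Set.mem_Ici.2 (sq_nonneg _)) ne
      one_half_pos one_half_pos (by norm_num)
    rw [e2] at this
    simp only [smul_eq_mul] at this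
    exact mul_pos_of_neg_of_neg (by linarith) (by
      linarith [Real.rpow_add_le_add_rpow (sq_nonneg a) (sq_nonneg b) (by positivity : 0 ≤ q / 2) (by linarith)])
  · have := (strictConvexOn_rpow (p := q / 2) (by linarith)).2 (Set.mem_Ici.2 (sq_nonneg _))
      (Set.mem_Ici.2 (sq_nonneg _)) ne
      one_half_pos one_half_pos (by norm_num)
    rw [e2] at this
    simp only [smul_eq_mul] at this
    exact mul_pos (by linarith) (by linarith [Real.add_rpow_le_rpow_add (sq_nonneg a) (sq_nonneg b) (by linarith : 1 ≤ q / 2)])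

lemma cl_zero {q a b : ℝ} (h1 : 1 < q) (h : a * b = 0) : cl q a b = 0 := by
  rcases mul_eq_zero.1 h with rfl | rfl <;> simp [cl, Real.zero_rpow (by positivity : q ≠ 0)] <;> right <;> ring

lemma cl_sum {q : ℝ} (h1 : 1 < q) (h2 : q ≠ 2) {ι : Type} [Fintype ι] (a b : ι → ℝ) :
    ∑ i, cl q (a i) (b i) = 0 ↔ ∀ i, a i * b i = 0 :=
  ⟨fun h i => by_contra fun c => (cl_pos h1 h2 c).ne' ((Finset.sum_eq_zero_iff_of_nonneg fun i _ =>
    (em _).elim (fun c => (cl_zero h1 c).ge) fun c => (cl_pos h1 h2 c).le).1 h i (Finset.mem_univ i)),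
    fun h => Finset.sum_eq_zero fun i _ => cl_zero h1 (h i)⟩

noncomputable def md (q a b : ℝ) : ℝ := 2 ^ q / 2 * (|a - 0| ^ q + |b - 0| ^ q) - |a - b| ^ q

lemma md_zero {q : ℝ} (a : ℝ) : md q a (-a) = 0 := by
  rw [md, sub_neg_eq_add, ← two_mul a, abs_mul, Real.mul_rpow (abs_nonneg _) (abs_nonneg _)]; simp; ring

lemma md_pos {q a b : ℝ} (h1 : 1 < q) (h : b ≠ -a) : 0 < md q a b := by
  simp only [md, sub_zero, sub_pos]
  by_cases c : |a| = |b|
  · obtain rfl : b = a := (abs_eq_abs.1 c.symm).resolve_right h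
    have : b ≠ 0 := fun d => h (by simp [d])
    rw [sub_self, abs_zero, Real.zero_rpow (by positivity)]; positivity
  have := (strictConvexOn_rpow h1).2 (abs_nonneg a) (abs_nonneg b) c one_half_pos one_half_pos (by norm_num)
  simp only [smul_eq_mul, ← mul_add] at this
  refine (Real.rpow_le_rpow (abs_nonneg _) (show _ ≤ 2 * (1 / 2 * (|a| + |b|)) by linarith [abs_sub a b])
    (by positivity)).trans_lt ?_
  rw [Real.mul_rpow two_pos.le (by positivity)]
  exact (mul_lt_mul_of_pos_left this (by positivity)).trans_eq (by ring)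

/-- Fix an exponent 1 < p < ∞ with p ≠ 2 and n ≥ 9. If d is a dimension such that every n distinct points of any real L^p space can be mapped to the d-dimensional real ℓ^p space with all pairwise distances multiplied by one common factor s > 0 (an isometric embedding up to scaling), then ⌊(n − 1)/4⌋² ≤ d. -/
theorem result
    (p : ℝ≥0∞) [Fact (1 ≤ p)] (hp1 : 1 < p) (hptop : p ≠ ⊤) (hp2 : p ≠ 2)
    (n : ℕ) (hn : 9 ≤ n) (d : ℕ)
    (hd : ∀ (α : Type) [MeasurableSpace α] (μ : Measure α) (x : Fin n → Lp ℝ p μ),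
      Function.Injective x →
      ∃ (y : Fin n → PiLp p (fun _ : Fin d => ℝ)) (s : ℝ), 0 < s ∧
        ∀ i j, ‖y i - y j‖ = s * ‖x i - x j‖) :
    ((n - 1) / 4) ^ 2 ≤ d := by
  classical
  have p1 : 1 < p.toReal := by simpa using ENNReal.toReal_strict_mono hptop hp1
  have p2 : p.toReal ≠ 2 := fun h => hp2 ((ENNReal.toReal_eq_toReal_iff' hptop (by simp)).1 (by simpa using h))
  set m := (n - 1) / 4
  let b : Fin m ⊕ Fin m → Fin m × Fin m → ℝ := Sum.elim (fun i x => if x.1 = i then 1 else 0) fun i x => if x.2 = i then 1 else 0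
  let F : Option (Bool × (Fin m ⊕ Fin m)) → Fin m × Fin m → ℝ := fun o x => o.elim 0 fun k => bif k.1 then b k.2 x else -b k.2 x
  let T : (Fin m × Fin m → ℝ) → Lp ℝ p (Measure.count : Measure (Fin m × Fin m)) := fun f => (MemLp.of_discrete (f := f)).toLp
  have hT : ∀ f g, ‖T f - T g‖ ^ p.toReal = ∑ x, |f x - g x| ^ p.toReal := fun f g => by
    rw [H0358.lp_pow hptop, ← integral_count]
    refine integral_congr_ae ?_
    filter_upwards [Lp.coeFn_sub (T f) (T g), (MemLp.of_discrete (f := f) (p := p)).coeFn_toLp,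
      (MemLp.of_discrete (f := g) (p := p)).coeFn_toLp] with x h1 h2 h3
    rw [h1, Pi.sub_apply, h2, h3]
  have : Infinite (Lp ℝ p (Measure.count : Measure (Fin m × Fin m))) := .of_injective (fun t : ℝ => T fun _ => t) fun s t h => by
    have := hT (fun _ => s) fun _ => t
    have m0 : m ≠ 0 := by omega
    simp only [show T (fun _ => s) = T fun _ => t from h] at this
    simpa [Real.zero_rpow (by positivity : p.toReal ≠ 0), m0, Real.rpow_eq_zero_iff_of_nonneg, sub_eq_zero,
      (by positivity : p.toReal ≠ 0)] using this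
  obtain ⟨S, hS, hc⟩ := Infinite.exists_superset_card_eq (Finset.univ.image fun o => T (F o)) n
    (Finset.card_image_le.trans (by simp; omega))
  obtain ⟨y, s, s0, h⟩ := hd _ _ (fun i => ((S.equivFinOfCardEq hc).symm i).1) (Subtype.val_injective.comp (Equiv.injective _))
  let Y := fun o => y (S.equivFinOfCardEq hc ⟨T (F o), hS (Finset.mem_image_of_mem _ (Finset.mem_univ o))⟩)
  have H : ∀ o o', ∑ c, |Y o c - Y none c - (Y o' c - Y none c)| ^ p.toReal = s ^ p.toReal * ∑ x, |F o x - F o' x| ^ p.toReal :=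
    fun o o' => by
    rw [← hT, ← Real.mul_rpow s0.le (norm_nonneg _)]
    simpa [H0358.pi_pow hptop] using congrArg (· ^ p.toReal) (h _ _ : ‖Y o - Y o'‖ = _)
  have H0 := fun o => H o none
  simp only [sub_self] at H0
  have N : ∀ k c, Y (some (false, k)) c - Y none c = -(Y (some (true, k)) c - Y none c) := fun k c => by
    by_contra d
    refine (md_pos p1 d).ne' ((Finset.sum_eq_zero_iff_of_nonneg (f := fun c => md p.toReal (Y (some (true, k)) c - Y none c)
      (Y (some (false, k)) c - Y none c)) fun c _ =>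
      (em _).elim (fun d => by rw [d, md_zero]) fun d => (md_pos p1 d).le).1 ?_ c (Finset.mem_univ c))
    have := Finset.sum_eq_zero fun x (_ : x ∈ Finset.univ) => md_zero (q := p.toReal) (b k x)
    simp only [md, Finset.sum_sub_distrib, ← Finset.mul_sum, Finset.sum_add_distrib, H, H0] at this ⊢
    simp only [F, Option.elim, cond]
    linear_combination (exp := 1) s ^ p.toReal * this
  have M : ∀ k l, (∀ c, (Y (some (true, k)) c - Y none c) * (Y (some (true, l)) c - Y none c) = 0) ↔ ∀ x, b k x * b l x = 0 :=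
    fun k l => by
    rw [← cl_sum p1 p2, ← cl_sum p1 p2, ← mul_eq_zero_iff_left (by positivity : s ^ p.toReal ≠ 0) (b := ∑ i, cl _ (b k i) _)]
    simp only [cl, ← N, Finset.sum_sub_distrib, ← Finset.mul_sum, Finset.sum_add_distrib, H, H0]
    exact Eq.congr_left (by simp only [F, Option.elim, cond]; ring)
  choose c hc using fun x : Fin m × Fin m => not_forall.1 fun h => one_ne_zero (α := ℝ)
    (by simpa [b] using (M (.inl x.1) (.inr x.2)).1 h x)
  simpa [sq] using Fintype.card_le_of_injective c fun x z e => Prod.ext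
    (by_contra fun d => mul_ne_zero (left_ne_zero_of_mul (hc x)) (e ▸ left_ne_zero_of_mul (hc z))
      ((M (.inl _) (.inl _)).2 (fun u => by simp only [b, Sum.elim_inl]; split_ifs <;> simp_all) _))
    (by_contra fun d => mul_ne_zero (right_ne_zero_of_mul (hc x)) (e ▸ right_ne_zero_of_mul (hc z))
      ((M (.inr _) (.inr _)).2 (fun u => by simp only [b, Sum.elim_inr]; split_ifs <;> simp_all) _))

end Crest.Agent.S0359
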