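import Crest.Statements.S0423
import Crest.Agent.H0280.Law

set_option autoImplicit false
open Crest Crest.AlgGeometry

namespace Crest.Agent.S0423

open MeasureTheory Set Filter Topology Crest.Agent.H0280 in
lemma Sv_ext (c : ℝ) (hc : c < 2) : ∀ (m : ℕ) (s : ℝ),
    Sv (m + 1) (fun i => if i.val = m then 2 else c) s ≤ ((1 - c / 2)⁻¹) ^ m * Real.exp (-s / 2) := by
  intro m
  induction m with
  | zero =>
    intro s
    rw [Sv_one _ (by simp)]
    simp only [Fin.val_zero, if_true, pow_zero, one_mul]
    exact Real.exp_le_exp.mpr (min_le_right _ _)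
  | succ m ih =>
    intro s
    rw [Sv_split (m + 1) _ 0]
    have e1 : (fun j : Fin (m + 1) => (fun i : Fin (m + 1 + 1) => if i.val = m + 1 then (2 : ℝ) else c)
        ((0 : Fin (m + 1 + 1)).succAbove j)) = fun i => if i.val = m then 2 else c := by
      funext j; simp
    have e2 : (if ((0 : Fin (m + 1 + 1)) : ℕ) = m + 1 then (2 : ℝ) else c) = c := by simp
    rw [e1, e2]
    have hneg : c / 2 - 1 < 0 := by linarith
    have hI := (integrableOn_exp_mul_Ioi hneg 0).const_mul
      (((1 - c / 2)⁻¹) ^ m * Real.exp (-s / 2))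
    calc _ ≤ ∫ t in Ioi 0, ((1 - c / 2)⁻¹) ^ m * Real.exp (-s / 2) * Real.exp ((c / 2 - 1) * t) := by
          refine integral_mono_of_nonneg (Eventually.of_forall fun t => ?_) hI
            (Eventually.of_forall fun t => ?_)
          · exact mul_nonneg (Sv_nonneg _ _ _) (Real.exp_pos _).le
          · have h1 := ih (s - c * t)
            have h2 : Real.exp (-(s - c * t) / 2) * Real.exp (-t) =
                Real.exp (-s / 2) * Real.exp ((c / 2 - 1) * t) := by
              rw [← Real.exp_add, ← Real.exp_add]; congr 1; ring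
            calc _ ≤ ((1 - c / 2)⁻¹) ^ m * Real.exp (-(s - c * t) / 2) * Real.exp (-t) :=
                  mul_le_mul_of_nonneg_right h1 (Real.exp_pos _).le
              _ = _ := by rw [mul_assoc, h2, ← mul_assoc]
      _ = _ := by
          rw [integral_const_mul, integral_exp_mul_Ioi hneg]
          have : (1 - c / 2) ≠ 0 := by linarith
          have h' : (c / 2 - 1) ≠ 0 := by linarith
          simp only [mul_zero, Real.exp_zero, pow_succ]
          have h3 : -1 / (c / 2 - 1) = (1 - c / 2)⁻¹ := by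
            rw [← neg_sub (1 : ℝ) (c / 2), neg_div_neg_eq, one_div]
          rw [h3]; ring

lemma sum_ext (c : ℝ) : ∀ m : ℕ,
    ∑ i : Fin (m + 1), (if i.val = m then (2 : ℝ) else c) = 2 + m * c := by
  intro m
  induction m with
  | zero => simp
  | succ m ih =>
    rw [Fin.sum_univ_succ]
    simp only [Fin.val_zero, Fin.val_succ, Nat.add_right_cancel_iff, ih]
    simp
    ring

open Crest.Agent.H0280 in
lemma const_eq : 3 / 4 * Real.exp (4 / 3) - Real.exp 1 / 3 =
    Real.exp (4 / 3) / (4 / 3) * (1 - cstar) := by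
  have : Real.exp 1 = Real.exp (4 / 3) * Real.exp (-1 / 3) := by
    rw [← Real.exp_add]; norm_num
  unfold cstar
  rw [this]; ring

open MeasureTheory Set Filter Topology Crest.Agent.H0280 in
lemma upper (N : ℕ) (a : Fin N → ℝ) (ha : ∑ i, a i = 0) :
    cstar ≤ ∫ y in Ioi 0, y * Real.exp (-y) * Sv N a (y - 4 / 3) := by
  by_cases h : ∃ i, 0 < a i
  · obtain ⟨h1, h2⟩ := Sv_good N a h
    obtain ⟨h3, h4⟩ := Sv_mean N a
    refine main_ineq (G := fun y => Sv N a (y - 4 / 3)) (fun y => h1 _) (fun y => Sv_le_one _ _ _)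
      (fun x y hxy => Sv_anti N a (by linarith)) ?_ h3 (h4.trans ha)
    refine ⟨convex_univ, fun x _ y _ p q hp hq hpq => ?_⟩
    have := h2.2 (mem_univ (x - 4 / 3)) (mem_univ (y - 4 / 3)) hp hq hpq
    simp only [smul_eq_mul] at this ⊢
    have e : p * x + q * y - 4 / 3 = p * (x - 4 / 3) + q * (y - 4 / 3) := by
      linear_combination (4 / 3) * hpq
    rw [e]; exact this
  · push Not at h
    have h0 : ∀ i, a i = 0 := fun i =>
      (Finset.sum_eq_zero_iff_of_nonpos (fun i _ => h i)).1 ha i (Finset.mem_univ i)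
    have e : ∀ y, Sv N a (y - 4 / 3) = step (4 / 3) y := by
      intro y
      rw [← integral_step_PP]
      simp [h0]
    simp_rw [e]
    rw [← one_sub_weight]
    unfold Crest.AlgGeometry.truncExpWeight
    rw [if_neg (by norm_num)]
    have h1 := cstar_le
    have hE : 1 + 4 / 3 + (4 / 3) ^ 2 / 2 + (4 / 3 : ℝ) ^ 3 / 6 ≤ Real.exp (4 / 3) := by
      have := Real.sum_le_exp_of_nonneg (x := 4 / 3) (by norm_num) 4
      simp [Finset.sum_range_succ, Nat.factorial] at this
      linarith
    have hEE : Real.exp (-(4 / 3)) * Real.exp (4 / 3) = 1 := by rw [← Real.exp_add]; simp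
    have hEpos : 0 < Real.exp (-(4 / 3)) := Real.exp_pos _
    nlinarith

open MeasureTheory Set Filter Topology Crest.Agent.H0280 in
lemma lower (m : ℕ) (hm : 0 < m) :
    ∫ y in Ioi 0, y * Real.exp (-y) *
      Sv (m + 1) (fun i => if i.val = m then 2 else (-2 / (m : ℝ))) (y - 4 / 3) ≤
      4 / 9 * Real.exp (2 / 3) * ((1 + 1 / (m : ℝ)) ^ m)⁻¹ := by
  have hm' : (0 : ℝ) < m := by exact_mod_cast hm
  have hc : -2 / (m : ℝ) < 2 := by
    have : -2 / (m : ℝ) < 0 := div_neg_of_neg_of_pos (by norm_num) hm'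
    linarith
  have e : (1 - -2 / (m : ℝ) / 2) = 1 + 1 / (m : ℝ) := by ring
  have hb := Sv_ext _ hc m
  rw [e, inv_pow] at hb
  set C := ((1 + 1 / (m : ℝ)) ^ m)⁻¹ with hC
  have hI := (integrableOn_mul_exp (β := 3 / 2) (by norm_num) (le_refl (0 : ℝ))).const_mul
    (C * Real.exp (2 / 3))
  calc _ ≤ ∫ y in Ioi 0, C * Real.exp (2 / 3) * (y * Real.exp (-(3 / 2) * y)) := by
        refine integral_mono_of_nonneg ?_ hI ?_
        · refine (ae_restrict_iff' measurableSet_Ioi).2 (Eventually.of_forall fun y hy => ?_)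
          have hy' : 0 < y := hy
          exact mul_nonneg (by positivity) (Sv_nonneg _ _ _)
        · refine (ae_restrict_iff' measurableSet_Ioi).2 (Eventually.of_forall fun y hy => ?_)
          have hy' : 0 < y := hy
          have h1 := hb (y - 4 / 3)
          have h2 : Real.exp (-y) * Real.exp (-(y - 4 / 3) / 2) =
              Real.exp (2 / 3) * Real.exp (-(3 / 2) * y) := by
            rw [← Real.exp_add, ← Real.exp_add]; congr 1; ring
          calc _ ≤ y * Real.exp (-y) * (C * Real.exp (-(y - 4 / 3) / 2)) :=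
                mul_le_mul_of_nonneg_left h1 (by positivity)
            _ = C * y * (Real.exp (-y) * Real.exp (-(y - 4 / 3) / 2)) := by ring
            _ = _ := by rw [h2]; ring
    _ = _ := by
        rw [integral_const_mul, integral_mul_exp (by norm_num) le_rfl]
        simp only [zero_div, zero_add, mul_zero, Real.exp_zero, mul_one]
        ring

/-- For independent mean-one exponential random variables `X_1, …, X_N` (written as an integral over the positive orthant against the density `exp (-(x_1 + ⋯ + x_N))`), real coefficients `a_1, …, a_N` summing to zero, and the weight `g = truncExpWeight`, the quantity `(e^{4/3} / (4/3)) · E[g(4/3 + a_1 X_1 + ⋯ + a_N X_N)]` has supremum over all `N ≥ 1` and all such `a` exactly `(3/4) e^{4/3} − e/3`: it never exceeds this value, and comes within any `ε > 0` of it for some `N` and `a`. -/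
theorem result :
    (∀ (N : ℕ) (a : Fin N → ℝ), 1 ≤ N → ∑ i, a i = 0 →
      Real.exp (4 / 3) / (4 / 3) *
          ∫ x in Set.pi Set.univ (fun _ : Fin N => Set.Ioi (0 : ℝ)),
            Crest.AlgGeometry.truncExpWeight (4 / 3 + ∑ i, a i * x i) * Real.exp (-∑ i, x i)
        ≤ 3 / 4 * Real.exp (4 / 3) - Real.exp 1 / 3) ∧
    (∀ ε : ℝ, 0 < ε → ∃ (N : ℕ) (a : Fin N → ℝ), 1 ≤ N ∧ ∑ i, a i = 0 ∧
      3 / 4 * Real.exp (4 / 3) - Real.exp 1 / 3 - ε <
        Real.exp (4 / 3) / (4 / 3) *
          ∫ x in Set.pi Set.univ (fun _ : Fin N => Set.Ioi (0 : ℝ)),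
            Crest.AlgGeometry.truncExpWeight (4 / 3 + ∑ i, a i * x i) * Real.exp (-∑ i, x i)) := by
  have hpos : 0 < Real.exp (4 / 3) / (4 / 3) := by positivity
  constructor
  · intro N a _ ha
    rw [Crest.Agent.H0280.integral_PP N
      (fun x => Crest.AlgGeometry.truncExpWeight (4 / 3 + ∑ i, a i * x i)),
      Crest.Agent.H0280.weight_integral, const_eq]
    have := upper N a ha
    gcongr
  · intro ε hε
    have hl : Filter.Tendsto (fun m : ℕ => 4 / 9 * Real.exp (2 / 3) * ((1 + 1 / (m : ℝ)) ^ m)⁻¹)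
        Filter.atTop (nhds (4 / 9 * Real.exp (2 / 3) * (Real.exp 1)⁻¹)) :=
      ((Real.tendsto_one_add_div_pow_exp 1).inv₀ (Real.exp_pos 1).ne').const_mul _
    have hc : 4 / 9 * Real.exp (2 / 3) * (Real.exp 1)⁻¹ = Crest.Agent.H0280.cstar := by
      unfold Crest.Agent.H0280.cstar
      rw [← Real.exp_neg, mul_assoc, ← Real.exp_add]; norm_num
    rw [hc] at hl
    set K := Real.exp (4 / 3) / (4 / 3) with hK
    have hlt : Crest.Agent.H0280.cstar < Crest.Agent.H0280.cstar + ε / K := by
      have : 0 < ε / K := div_pos hε hpos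
      linarith
    obtain ⟨m, hm1, hm2⟩ := ((hl.eventually (gt_mem_nhds hlt)).and
      (Filter.eventually_gt_atTop 0)).exists
    have hm' : (0 : ℝ) < m := by exact_mod_cast hm2
    refine ⟨m + 1, fun i => if i.val = m then 2 else (-2 / (m : ℝ)), by omega, ?_, ?_⟩
    · rw [sum_ext]; field_simp; ring
    · rw [Crest.Agent.H0280.integral_PP (m + 1)
        (fun x => Crest.AlgGeometry.truncExpWeight
          (4 / 3 + ∑ i : Fin (m + 1), (if i.val = m then 2 else (-2 / (m : ℝ))) * x i)),
        Crest.Agent.H0280.weight_integral, const_eq]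
      have h1 := lower m hm2
      have h2 : K * (ε / K) = ε := by field_simp
      rw [← hK]
      nlinarith [mul_lt_mul_of_pos_left (lt_of_le_of_lt h1 hm1) hpos]

end Crest.Agent.S0423
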