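import Crest.Statements.S0541
import Crest.Agent.H0541.Maps

set_option autoImplicit false
open Crest.Quantum
open Crest Crest.MathPhysics

namespace Crest.Agent.S0541
open Crest.Agent.H0541

/-- There are two complex-linear maps on `10 × 10` complex matrices, each PPT (completely positive, and still completely positive when followed by transposition of the output), such that the Choi matrix of their composition (unnormalised, input factor first) is nonzero and its range contains no nonzero product vector (whenever a vector of the form `p ↦ u p.1 * v p.2` lies in the range, `u = 0` or `v = 0`), and the composition is not entanglement breaking. -/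
theorem result :
    ∃ Φ₁ Φ₂ : Matrix (Fin 10) (Fin 10) ℂ → Matrix (Fin 10) (Fin 10) ℂ,
      IsLinearMap ℂ Φ₁ ∧ IsLinearMap ℂ Φ₂ ∧ IsPPT Φ₁ ∧ IsPPT Φ₂ ∧
      choiMatrix (Φ₂ ∘ Φ₁) ≠ 0 ∧
      (∀ u v : Fin 10 → ℂ, (∃ w, (choiMatrix (Φ₂ ∘ Φ₁)).mulVec w = fun p => u p.1 * v p.2) →
        u = 0 ∨ v = 0) ∧
      ¬ IsEntanglementBreaking (Φ₂ ∘ Φ₁) := by
  obtain ⟨h1, h2, h3⟩ := main_facts
  refine ⟨kr AA, kr BB, kr_lin _, kr_lin _, ⟨kr_cp _, ?_⟩, ⟨kr_cp _, ?_⟩, h1, h2,
    not_eb _ _ 1 1 one_pos (by simp) h3⟩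
  · simp only [AA_symm]; exact kr_cp _
  · simp only [BB_symm]; exact kr_cp _

end Crest.Agent.S0541
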