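import Crest.Statements.S0554
import Crest.Agent.H0554.Core
-- import your own Crest.Agent.* helpers here

set_option autoImplicit false
open Crest.MathPhysics.Query
open Crest Crest.MathPhysics

namespace Crest.Agent.S0554

/-- For every `k ≥ 2` there are constants `c, C, b > 0` such that for every large enough power of four `m` some total Boolean function on finitely many bits has a quantum query algorithm with at most `C √m (log m)^b` queries and error at most `1/3` on every input, while every randomized algorithm with error at most `1/3` on every input reads at least `c m^{2 - 1/k} / (log m)^2` bits on some input. So no power below four bounds randomized by quantum query complexity. -/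
theorem result (k : ℕ) (hk : 2 ≤ k) :
    ∃ (c C b : ℝ), 0 < c ∧ 0 < C ∧ 0 < b ∧ ∃ m₀ : ℕ, ∀ m : ℕ, m₀ ≤ m → (∃ j : ℕ, m = 4 ^ j) →
      ∃ (n : ℕ) (F : (Fin n → Bool) → Bool),
        (∃ q : ℕ, (q : ℝ) ≤ C * Real.sqrt m * Real.log m ^ b ∧ QuantumComputes F q) ∧
        (∀ r : ℕ, RandomizedComputes F r →
          c * (m : ℝ) ^ (2 - 1 / (k : ℝ)) / Real.log m ^ 2 ≤ r) := by
  obtain ⟨K, hK⟩ : ∃ K, K + 1 = 2 * k := ⟨2 * k - 1, by omega⟩
  obtain ⟨B, hB⟩ : ∃ B, B + 24 * k + 1 = 48 * k ^ 2 := ⟨48 * k ^ 2 - (24 * k + 1), by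
    have : 24 * k + 1 ≤ 48 * k ^ 2 := by nlinarith
    omega⟩
  obtain ⟨c₀, C, C0, h⟩ := H0554.core K (48 * k ^ 2) B (by omega) (by nlinarith) (by omega)
  obtain ⟨t₀, ht₀⟩ := pow_unbounded_of_one_lt c₀ (one_lt_two (α := ℝ))
  set u := 48 * k ^ 2 + 6 * K with hu
  have u0 : 0 < u := by positivity
  refine ⟨1 / (6 * 4 ^ (2 * u)), C, 4, by positivity, C0, by norm_num, 4 ^ (u * (t₀ + 1)), ?_⟩
  rintro m hm ⟨j, rfl⟩
  have hj : u * (t₀ + 1) ≤ j := (Nat.pow_le_pow_iff_right (by norm_num)).1 hm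
  have ht : t₀ + 1 ≤ j / u := (Nat.le_div_iff_mul_le u0).2 (by rwa [mul_comm])
  have h1 : j / u * u ≤ j := Nat.div_mul_le_self j u
  have h2 : j < u * (j / u + 1) := Nat.lt_mul_div_succ j u0
  have h3 : j / u ≤ j := Nat.div_le_self j u
  generalize j / u = t at *
  obtain ⟨N, F, ⟨Q, hQ, hQ'⟩, hR⟩ := h t (by omega)
    (ht₀.le.trans (pow_le_pow_right₀ one_le_two (by omega)))
  have hl : (j : ℝ) ≤ Real.log ((4 ^ j : ℕ) : ℝ) := by
    push_cast
    rw [Real.log_pow]
    refine le_mul_of_one_le_right (by positivity) ?_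
    rw [Real.le_log_iff_exp_le (by norm_num)]
    linarith [Real.exp_one_lt_d9]
  refine ⟨N, F, ⟨Q, hQ.trans ?_, hQ'⟩, fun r hr => ?_⟩
  · have : √((4 ^ j : ℕ) : ℝ) = 2 ^ j := by
      rw [Real.sqrt_eq_iff_mul_self_eq (by positivity) (by positivity), ← mul_pow]
      norm_num
    rw [this, mul_right_comm, ← pow_mul, show (4 : ℝ) = (4 : ℕ) by norm_num, Real.rpow_natCast]
    have : (t : ℝ) ≤ j := by exact_mod_cast h3
    gcongr
    · norm_num
    · linarith
  · have j1 : (1 : ℝ) ≤ j := by exact_mod_cast (show 1 ≤ j by omega)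
    have k0 : (0 : ℝ) < k := by positivity
    have e1 : ((4 ^ j : ℕ) : ℝ) ^ (2 - 1 / (k : ℝ)) ≤ 4 ^ (2 * u + (48 * k ^ 2 + B) * t) := by
      push_cast
      rw [← Real.rpow_natCast, ← Real.rpow_mul (by norm_num), ← Real.rpow_natCast]
      refine Real.rpow_le_rpow_of_exponent_le (by norm_num) ?_
      have a1 : (j : ℝ) ≤ u * (t + 1) := by exact_mod_cast h2.le
      have a2 : (u : ℝ) ≤ k * (48 * k + 12) := by
        exact_mod_cast (show u ≤ k * (48 * k + 12) by nlinarith)
      have a3 : (B : ℝ) + 24 * k + 1 = 48 * k ^ 2 := by exact_mod_cast hB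
      have a4 : 0 ≤ 2 - 1 / (k : ℝ) := by
        have : (2 : ℝ) ≤ k := by exact_mod_cast hk
        rw [sub_nonneg, div_le_iff₀ k0]; linarith
      have a5 : (u : ℝ) * (2 - 1 / k) ≤ 48 * k ^ 2 + B := by
        calc _ ≤ k * (48 * k + 12) * (2 - 1 / (k : ℝ)) := by gcongr
          _ = (48 * k + 12) * (2 * k - 1) := by field_simp
          _ ≤ _ := by nlinarith
      have a6 : (u : ℝ) * (2 - 1 / k) ≤ 2 * u := by
        have : 0 ≤ (u : ℝ) * (1 / k) := by positivity
        linarith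
      push_cast
      calc _ ≤ u * (t + 1) * (2 - 1 / (k : ℝ)) := by gcongr
        _ = u * (2 - 1 / (k : ℝ)) + u * (2 - 1 / (k : ℝ)) * t := by ring
        _ ≤ _ := by gcongr
    have e2 := hR r hr
    rw [← pow_mul, mul_comm t, mul_assoc, pow_mul] at e2
    refine (div_le_self (by positivity) (one_le_pow₀ (j1.trans hl))).trans ?_
    calc _ ≤ 1 / (6 * 4 ^ (2 * u)) * (4 : ℝ) ^ (2 * u + (48 * k ^ 2 + B) * t) := by gcongr
      _ = (2 ^ 2) ^ ((48 * k ^ 2 + B) * t) / 6 := by rw [pow_add]; field_simp; norm_num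
      _ ≤ _ := (div_le_iff₀' (by norm_num)).2 e2

end Crest.Agent.S0554
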